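import Mathlib

/-!
Drawings of graphs in the plane (identified with `ℂ`), their crossing points, and proper
(transversal) crossings.
-/

namespace Vale.Agent.P040Z

open Set

/-- The interior of an arc: the image of the open parameter interval. -/
def arcInterior (γ : C(unitInterval, ℂ)) : Set ℂ := γ '' Set.Ioo 0 1

/-- The points lying in the interiors of two different arcs of a family of arcs. -/
def crossingPoints {E : Type} (arc : E → C(unitInterval, ℂ)) : Set ℂ :=
  {z | ∃ e f : E, e ≠ f ∧ z ∈ arcInterior (arc e) ∧ z ∈ arcInterior (arc f)}

/-- A drawing of a simple graph in the plane: vertices at distinct points, each edge a simple arc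
between its endpoints whose interior avoids all vertices, edge interiors meet in finitely many
points, and no point lies in the interiors of three different edges.  (Tangencies are allowed
here; they are excluded by `Drawing.Proper`.) -/
structure Drawing {V : Type} (G : SimpleGraph V) where
  pos : V → ℂ
  pos_inj : Function.Injective pos
  arc : G.edgeSet → C(unitInterval, ℂ)
  ends : ∀ e : G.edgeSet, ∃ u v : V, (e : Sym2 V) = s(u, v) ∧ arc e 0 = pos u ∧ arc e 1 = pos v
  simple : ∀ e : G.edgeSet, Function.Injective (arc e)
  avoid : ∀ (e : G.edgeSet) (v : V), pos v ∉ arcInterior (arc e)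
  finite : (crossingPoints arc).Finite
  two : ∀ e f g : G.edgeSet, e ≠ f → e ≠ g → f ≠ g →
    arcInterior (arc e) ∩ arcInterior (arc f) ∩ arcInterior (arc g) = ∅

/-- The number of crossing points of a drawing. -/
noncomputable def Drawing.crossings {V : Type} {G : SimpleGraph V} (D : Drawing G) : ℕ :=
  (crossingPoints D.arc).ncard

/-- Every common interior point of two different edges is a proper (transversal) crossing: some
local homeomorphism of the plane near the point carries the point to the origin and the two edges
to the two coordinate axes. -/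
def Drawing.Proper {V : Type} {G : SimpleGraph V} (D : Drawing G) : Prop :=
  ∀ e f : G.edgeSet, e ≠ f → ∀ z ∈ arcInterior (D.arc e) ∩ arcInterior (D.arc f),
    ∃ h : OpenPartialHomeomorph ℂ ℂ, z ∈ h.source ∧ h z = 0 ∧
      ∀ w ∈ h.source, (w ∈ Set.range (D.arc e) ↔ (h w).im = 0) ∧
        (w ∈ Set.range (D.arc f) ↔ (h w).re = 0)

/-- `d r = ⌊r/2⌋ ⌊(r-1)/2⌋`. -/
def d (r : ℕ) : ℕ := (r / 2) * ((r - 1) / 2)

end Vale.Agent.P040Z
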