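import Vale.Agent.P040Z.Low

/-!
Line sums and the forms `sig X`; nondegeneracy of `sig X` for a switched linear order `X`.
-/

namespace Vale.Agent.P040Z

open Finset

variable {K : Type} [Field K] {ι : Type} [Fintype ι] [DecidableEq ι] {M N : Type}
  [AddCommGroup M] [Module K M] [AddCommGroup N] [Module K N] {x : ι → K} {a a' : ℕ}

/-- The weight of the ordered pair `(i, j)`. -/
def cw (x : ι → K) (i j : ι) : K := (x i - x j) * (wt x i * wt x j)

theorem cw_self (i : ι) : cw x i i = 0 := by simp [cw]

theorem cw_ne_zero (hx : Function.Injective x) {i j : ι} (h : i ≠ j) : cw x i j ≠ 0 :=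
  mul_ne_zero (sub_ne_zero.2 fun e => h (hx e)) (mul_ne_zero (wt_ne_zero hx i) (wt_ne_zero hx j))

theorem sum_wt_bil (hx : Function.Injective x) (h : a + a' + 1 ≤ Fintype.card ι)
    (μ : M →ₗ[K] N →ₗ[K] K) {f : ι → M} {g : ι → N} (hf : f ∈ Low M x a) (hg : g ∈ Low N x a') :
    ∑ j, wt x j * μ (f j) (g j) = 0 :=
  Low.sum_eq_zero hx (by omega) (Low.bil μ hf hg)

theorem sum_wt_bil' (hx : Function.Injective x) (h : a + a' + 1 ≤ Fintype.card ι)
    (μ : M →ₗ[K] N →ₗ[K] K) {f : ι → M} {g : ι → N} (hf : f ∈ Low M x a) (hg : g ∈ Low N x a') :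
    ∑ j, wt x j * (x j * μ (f j) (g j)) = 0 := by
  have := Low.sum_eq_zero hx (by omega) (Low.bil μ (Low.smul Low.self hf) hg)
  simpa only [map_smul, LinearMap.smul_apply, smul_eq_mul] using this

theorem line_right (hx : Function.Injective x) (h : a + a' + 1 ≤ Fintype.card ι)
    (μ : M →ₗ[K] N →ₗ[K] K) {F : ι → ι → M} {G : ι → ι → N} (hF : F ∈ Bi M x a a')
    (hG : G ∈ Bi N x a a') (i : ι) : ∑ j, cw x i j * μ (F i j) (G j i) = 0 := by
  have h0 := sum_wt_bil hx (by omega) μ (hF.2 i) (hG.1 i)
  have h1 := sum_wt_bil' hx (by omega) μ (hF.2 i) (hG.1 i)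
  calc _ = ∑ j, (x i * wt x i * (wt x j * μ (F i j) (G j i)) -
        wt x i * (wt x j * (x j * μ (F i j) (G j i)))) :=
        sum_congr rfl fun j _ => by rw [cw]; ring
    _ = 0 := by rw [sum_sub_distrib, ← mul_sum, ← mul_sum, h0, h1]; simp

theorem line_left (hx : Function.Injective x) (h : a + a' + 1 ≤ Fintype.card ι)
    (μ : M →ₗ[K] N →ₗ[K] K) {F : ι → ι → M} {G : ι → ι → N} (hF : F ∈ Bi M x a a')
    (hG : G ∈ Bi N x a a') (j : ι) : ∑ i, cw x i j * μ (F i j) (G j i) = 0 := by
  have h0 := sum_wt_bil hx (by omega) μ (hF.1 j) (hG.2 j)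
  have h1 := sum_wt_bil' hx (by omega) μ (hF.1 j) (hG.2 j)
  calc _ = ∑ i, (wt x j * (wt x i * (x i * μ (F i j) (G j i))) -
        x j * wt x j * (wt x i * μ (F i j) (G j i))) :=
        sum_congr rfl fun i _ => by rw [cw]; ring
    _ = 0 := by rw [sum_sub_distrib, ← mul_sum, ← mul_sum, h0, h1]; simp

/-- The form attached to `X`. -/
def sig (x : ι → K) (a a' : ℕ) (X : ι → ι → K) : Bi K x a a' →ₗ[K] Bi K x a a' →ₗ[K] K :=
  LinearMap.mk₂ K (fun P G => ∑ i, ∑ j, X i j * (cw x i j * (P.1 i j * G.1 j i)))
    (fun P P' G => by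
      simp only [Submodule.coe_add, Pi.add_apply, add_mul, mul_add, sum_add_distrib])
    (fun c P G => by
      simp only [Submodule.coe_smul, Pi.smul_apply, smul_eq_mul, mul_sum]
      exact sum_congr rfl fun i _ => sum_congr rfl fun j _ => by ring)
    (fun P G G' => by
      simp only [Submodule.coe_add, Pi.add_apply, mul_add, sum_add_distrib])
    (fun c P G => by
      simp only [Submodule.coe_smul, Pi.smul_apply, smul_eq_mul, mul_sum]
      exact sum_congr rfl fun i _ => sum_congr rfl fun j _ => by ring)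

theorem sig_apply (X : ι → ι → K) (P G : Bi K x a a') :
    sig x a a' X P G = ∑ i, ∑ j, X i j * (cw x i j * (P.1 i j * G.1 j i)) := rfl

theorem sig_add (X Y : ι → ι → K) (P G : Bi K x a a') :
    sig x a a' (fun i j => X i j + Y i j) P G = sig x a a' X P G + sig x a a' Y P G := by
  simp only [sig_apply, add_mul, sum_add_distrib]

theorem sig_congr {X Y : ι → ι → K} (h : ∀ i j, i ≠ j → X i j = Y i j) (P G : Bi K x a a') :
    sig x a a' X P G = sig x a a' Y P G := by
  simp only [sig_apply]
  refine sum_congr rfl fun i _ => sum_congr rfl fun j _ => ?_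
  by_cases hij : i = j
  · subst hij; simp [cw_self]
  · rw [h i j hij]

theorem sig_left (hx : Function.Injective x) (h : a + a' + 1 ≤ Fintype.card ι) (u : ι → K)
    (P G : Bi K x a a') : sig x a a' (fun i _ => u i) P G = 0 := by
  rw [sig_apply]
  refine sum_eq_zero fun i _ => ?_
  rw [← mul_sum]
  exact mul_eq_zero_of_right _ (line_right hx h (LinearMap.mul K K) P.2 G.2 i)

theorem sig_right (hx : Function.Injective x) (h : a + a' + 1 ≤ Fintype.card ι) (u : ι → K)
    (P G : Bi K x a a') : sig x a a' (fun _ j => u j) P G = 0 := by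
  rw [sig_apply, sum_comm]
  refine sum_eq_zero fun j _ => ?_
  rw [← mul_sum]
  exact mul_eq_zero_of_right _ (line_left hx h (LinearMap.mul K K) P.2 G.2 j)

theorem mono_inj [CharP K 2] (hx : Function.Injective x)
    (hx2 : ∀ z : ι → K, ∑ i, x i * z i ^ 2 = 0 → ∀ i, z i = 0)
    (h : a + a' + 1 ≤ Fintype.card ι) (S : Finset ι) (O : ι → ι → Prop)
    (hO : ∀ i j, i ≠ j → (i ∈ S ↔ j ∈ S) → O i j ∨ O j i) {P : ι → ι → K}
    (hP : P ∈ Bi K x a a') (h0 : ∀ i j, i ≠ j → O i j → P i j = 0) : P = 0 := by
  classical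
  refine descent hx h (fun i j => if O i j then ⊥ else ⊤) ?_ P hP ?_
  · intro P hP hZ
    have h0 : ∀ i j, i ≠ j → O i j → P i j = 0 := fun i j hij hO => by
      have := hZ i j hij
      rw [if_pos hO] at this
      exact this
    set χ : ι → K := fun i => if i ∈ S then 1 else 0 with hχ
    set H : ι → ι → K := fun i j => wt x i * wt x j * (P i j * P j i) with hH
    have r0 : ∀ i, ∑ j, H i j = 0 := fun i => by
      have := sum_wt_bil hx (by omega) (LinearMap.mul K K) (hP.2 i) (hP.1 i)
      calc _ = wt x i * ∑ j, wt x j * (P i j * P j i) := by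
            rw [mul_sum]; exact sum_congr rfl fun j _ => by rw [hH]; ring
        _ = 0 := mul_eq_zero_of_right _ this
    have r1 : ∀ j, ∑ i, x i * H i j = 0 := fun j => by
      have := sum_wt_bil' hx (by omega) (LinearMap.mul K K) (hP.1 j) (hP.2 j)
      calc _ = wt x j * ∑ i, wt x i * (x i * (P i j * P j i)) := by
            rw [mul_sum]; exact sum_congr rfl fun j _ => by rw [hH]; ring
        _ = 0 := mul_eq_zero_of_right _ this
    have pt : ∀ i j, x i * H i j =
        (if i = j then x i * H i j else 0) + (x i * χ i * H i j + χ j * (x i * H i j)) := by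
      intro i j
      by_cases hij : i = j
      · subst hij
        rw [if_pos rfl, mul_comm (x i) (χ i), mul_assoc, CharTwo.add_self_eq_zero, add_zero]
      · rw [if_neg hij]
        by_cases hS : i ∈ S ↔ j ∈ S
        · have : H i j = 0 := by
            rcases hO i j hij hS with h1 | h1
            · simp [hH, h0 i j hij h1]
            · simp [hH, h0 j i (Ne.symm hij) h1]
          simp [this]
        · by_cases hi : i ∈ S
          · have hj : j ∉ S := fun hj => hS ⟨fun _ => hj, fun _ => hi⟩
            simp [hχ, hi, hj]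
          · have hj : j ∈ S := by
              by_contra hj
              exact hS ⟨fun h => absurd h hi, fun h => absurd h hj⟩
            simp [hχ, hi, hj]
    have e0 : ∑ i, ∑ j, x i * H i j = 0 := by
      rw [sum_comm]; exact sum_eq_zero fun j _ => r1 j
    have e1 : ∑ i, ∑ j, x i * χ i * H i j = 0 :=
      sum_eq_zero fun i _ => by rw [← mul_sum, r0, mul_zero]
    have e2 : ∑ i, ∑ j, χ j * (x i * H i j) = 0 := by
      rw [sum_comm]; exact sum_eq_zero fun j _ => by rw [← mul_sum, r1, mul_zero]
    have e3 : ∑ i, x i * (wt x i * P i i) ^ 2 = 0 := by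
      rw [sum_congr rfl fun i _ => sum_congr rfl fun j _ => pt i j] at e0
      simp only [sum_add_distrib, e1, e2, add_zero, sum_ite_eq, mem_univ, if_true] at e0
      rw [← e0]
      exact sum_congr rfl fun i _ => by rw [hH]; ring
    intro i
    exact (mul_eq_zero.1 (hx2 _ e3 i)).resolve_left (wt_ne_zero hx i)
  · intro i j hij
    split_ifs with hO
    · exact h0 i j hij hO
    · trivial

omit [DecidableEq ι] in
theorem exists_upper {η : ι → ℝ} (hη : Function.Injective η) (s : ℕ) (hs : s ≤ Fintype.card ι) :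
    ∃ S : Finset ι, S.card = s ∧ ∀ i ∈ S, ∀ j ∉ S, η j < η i := by
  classical
  induction s with
  | zero => exact ⟨∅, rfl, fun i hi => absurd hi (notMem_empty i)⟩
  | succ s ih =>
    obtain ⟨S, hS, h⟩ := ih (by omega)
    have hne : Sᶜ.Nonempty := by
      rw [← card_pos, card_compl]; omega
    obtain ⟨u, hu, hmax⟩ := exists_max_image Sᶜ η hne
    have hu' := mem_compl.1 hu
    refine ⟨insert u S, by rw [card_insert_of_notMem hu', hS], fun i hi j hj => ?_⟩
    rw [mem_insert, not_or] at hj
    rcases mem_insert.1 hi with rfl | hi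
    · exact lt_of_le_of_ne (hmax j (mem_compl.2 hj.2)) fun e => hj.1 (hη e)
    · exact h i hi j hj.2

theorem half_count (m : ℕ) :
    m / 2 * (m / 2) - m / 2 + ((m - m / 2) * (m - m / 2) - (m - m / 2)) ≤
      2 * ((m - 1) / 2 * (m / 2)) := by
  obtain ⟨p, rfl | rfl⟩ := Nat.even_or_odd' m
  · rcases p with _ | p
    · simp
    · have e1 : 2 * (p + 1) / 2 = p + 1 := by omega
      have e2 : (2 * (p + 1) - 1) / 2 = p := by omega
      have e3 : 2 * (p + 1) - (p + 1) = p + 1 := by omega
      have e4 : (p + 1) * (p + 1) - (p + 1) = p * (p + 1) := by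
        rw [Nat.succ_mul]; omega
      rw [e1, e2, e3, e4]; omega
  · have e1 : (2 * p + 1) / 2 = p := by omega
    have e2 : (2 * p + 1 - 1) / 2 = p := by omega
    have e3 : 2 * p + 1 - p = p + 1 := by omega
    have e4 : (p + 1) * (p + 1) = p * p + 2 * p + 1 := by ring
    have e5 : p ≤ p * p := Nat.le_mul_self p
    rw [e1, e2, e3, e4]; omega

theorem sig_nondeg [CharP K 2] (hx : Function.Injective x)
    (hx2 : ∀ z : ι → K, ∑ i, x i * z i ^ 2 = 0 → ∀ i, z i = 0) (hm : 1 ≤ Fintype.card ι)
    (ha : a = (Fintype.card ι - 1) / 2) (ha' : a' = Fintype.card ι / 2)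
    {η : ι → ℝ} (hη : Function.Injective η) (β : ι → K) {X : ι → ι → K}
    (hX : ∀ i j, i ≠ j → X i j = β i + β j + if η j < η i then 1 else 0)
    {P : Bi K x a a'} (hP : ∀ G, sig x a a' X P G = 0) : P = 0 := by
  have h : a + a' + 1 ≤ Fintype.card ι := by omega
  obtain ⟨S, hSc, hS⟩ := exists_upper hη (Fintype.card ι / 2) (by omega)
  set O : ι → ι → Prop := fun i j =>
    (i ∈ S ∧ j ∈ S ∧ η i < η j) ∨ (i ∉ S ∧ j ∉ S ∧ η j < η i) with hO
  have hO1 : ∀ i j, i ≠ j → (i ∈ S ↔ j ∈ S) → O i j ∨ O j i := by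
    intro i j hij hs
    have := lt_or_gt_of_ne fun e => hij (hη e)
    simp only [hO]
    tauto
  have hO2 : ∀ i j, O i j → i ≠ j := by
    rintro i j h rfl
    simp [hO] at h
  set Ω : Finset (ι × ι) := univ.filter fun w => O w.1 w.2 with hΩ
  have hsig : ∀ G : Bi K x a a', ∑ w ∈ Ω, cw x w.1 w.2 * (P.1 w.1 w.2 * G.1 w.2 w.1) = 0 := by
    intro G
    have e := hP G
    rw [sig_congr (Y := fun i j => (if O i j then 1 else 0) +
        ((β i + if i ∈ S then 1 else 0) + β j)), sig_add, sig_add, sig_left hx h, sig_right hx h,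
      add_zero, add_zero, sig_apply, ← sum_product'] at e
    · rw [← e, hΩ, sum_filter, univ_product_univ]
      exact sum_congr rfl fun w _ => by split_ifs <;> simp
    · intro i j hij
      rw [hX i j hij]
      have two : (1 : K) + 1 = 0 := CharTwo.add_self_eq_zero 1
      have hne : η i ≠ η j := fun e => hij (hη e)
      by_cases hi : i ∈ S <;> by_cases hj : j ∈ S
      · by_cases hlt : η j < η i
        · have : ¬ η i < η j := not_lt.2 hlt.le
          simp only [hO, hi, hj, hlt, this, if_true]
          simp; ring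
        · have : η i < η j := lt_of_le_of_ne (not_lt.1 hlt) hne
          simp only [hO, hi, hj, hlt, this, if_true]
          simp; linear_combination -two
      · have := hS i hi j hj
        simp only [hO, hi, hj, this, if_true]
        simp; ring
      · have := not_lt.2 (hS j hj i hi).le
        simp only [hO, hi, hj, this]
        simp
      · by_cases hlt : η j < η i
        · simp only [hO, hi, hj, hlt, if_true]
          simp; ring
        · simp only [hO, hi, hj, hlt]
          simp
  have hcard : Ω.card ≤ a * a' := by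
    have hd : Disjoint Ω (Ω.map (Equiv.prodComm ι ι).toEmbedding) := by
      rw [disjoint_left]
      intro w hw hw'
      rw [mem_map_equiv] at hw'
      simp only [hΩ, hO, mem_filter, mem_univ, true_and, Equiv.prodComm_symm,
        Equiv.prodComm_apply, Prod.fst_swap, Prod.snd_swap] at hw hw'
      rcases hw with h1 | h1 <;> rcases hw' with h2 | h2
      · exact lt_asymm h1.2.2 h2.2.2
      · exact h2.1 h1.2.1
      · exact h1.1 h2.2.1
      · exact lt_asymm h1.2.2 h2.2.2
    have hsub : Ω ∪ Ω.map (Equiv.prodComm ι ι).toEmbedding ⊆ S.offDiag ∪ Sᶜ.offDiag := by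
      intro w hw
      rw [mem_union, mem_map_equiv] at hw
      simp only [hΩ, mem_filter, mem_univ, true_and, Equiv.prodComm_symm,
        Equiv.prodComm_apply, Prod.fst_swap, Prod.snd_swap] at hw
      simp only [mem_union, mem_offDiag, mem_compl]
      rcases hw with hw | hw
      · have := hO2 _ _ hw
        simp only [hO] at hw
        tauto
      · have := (hO2 _ _ hw).symm
        simp only [hO] at hw
        tauto
    have h1 := (card_le_card hsub).trans (card_union_le _ _)
    rw [card_union_of_disjoint hd, card_map, offDiag_card, offDiag_card, card_compl, hSc] at h1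
    have h2 := half_count (Fintype.card ι)
    rw [← ha, ← ha'] at h2
    rw [← ha'] at h1
    omega
  let ev : Bi K x a a' →ₗ[K] (Ω → K) :=
    { toFun := fun G w => G.1 w.1.2 w.1.1
      map_add' := fun _ _ => rfl
      map_smul' := fun _ _ => rfl }
  have hinj : Function.Injective ev := by
    rw [← LinearMap.ker_eq_bot, LinearMap.ker_eq_bot']
    intro G hG
    refine Subtype.ext (mono_inj hx hx2 h S (fun i j => O j i) (fun i j hij hs => ?_) G.2 ?_)
    · exact (hO1 i j hij hs).symm
    · intro i j _ hO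
      exact congrFun hG ⟨(j, i), mem_filter.2 ⟨mem_univ _, hO⟩⟩
  have hsurj : Function.Surjective ev := by
    refine (LinearMap.injective_iff_surjective_of_finrank_eq_finrank ?_).1 hinj
    refine le_antisymm (LinearMap.finrank_le_finrank_of_injective hinj) ?_
    have := finrank_Bi (M := K) hx (b := a) (b' := a') (by omega) (by omega)
    rw [Module.finrank_self, mul_one] at this
    rw [Module.finrank_fintype_fun_eq_card, Fintype.card_coe]
    omega
  refine Subtype.ext (mono_inj hx hx2 h S O hO1 P.2 fun i j hij hOij => ?_)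
  have hw : (i, j) ∈ Ω := mem_filter.2 ⟨mem_univ _, hOij⟩
  obtain ⟨G, hG⟩ := hsurj (Pi.single ⟨(i, j), hw⟩ 1)
  have e := hsig G
  rw [sum_eq_single (i, j)] at e
  · have : G.1 j i = 1 := (congrFun hG ⟨(i, j), hw⟩).trans (Pi.single_eq_same _ _)
    rw [this, mul_one] at e
    exact (mul_eq_zero.1 e).resolve_left (cw_ne_zero hx hij)
  · intro w hw' hne
    have : G.1 w.2 w.1 = 0 := (congrFun hG ⟨w, hw'⟩).trans
      (Pi.single_eq_of_ne (fun e => hne (congrArg Subtype.val e)) _)
    rw [this]; simp
  · intro h'; exact absurd hw h'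

end Vale.Agent.P040Z
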