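import Vale.Agent.P040Z.Comb
import Vale.Agent.P040Z.Defs
import Vale.Agent.P040Z.Sig

/-!
The algebraic heart: the set `T` of odd pairs has at least `2 d m d n` elements.
-/

namespace Vale.Agent.P040Z

open Finset

section General

variable {K : Type} [Field K] {ι κ : Type} [Fintype ι] [DecidableEq ι] [Fintype κ]
  [DecidableEq κ] {x : ι → K} {y : κ → K} {a a' b b' : ℕ}

theorem zmod_two_eq_one {u : ZMod 2} (h : u ≠ 0) : u = 1 := by
  revert u; decide

omit [Fintype ι] [DecidableEq ι] [Fintype κ] [DecidableEq κ] in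
theorem Comb.I_swap (C : Comb ι κ) {i j : ι} {k l : κ} (hij : i ≠ j) (hkl : k ≠ l) :
    C.I j i l k = C.I i j k l := by
  have h1 := C.hX k i j hij
  have h2 := C.hX k j i hij.symm
  have h3 := C.hs' k l hkl
  have two : (2 : ZMod 2) = 0 := rfl
  have hne : C.η k i ≠ C.η k j := fun e => hij (C.η_inj k e)
  have h4 : ((if C.η k j < C.η k i then 1 else 0) + if C.η k i < C.η k j then 1 else 0 : ZMod 2)
      = 1 := by
    rcases lt_or_gt_of_ne hne with h | h
    · rw [if_neg (not_lt.2 h.le), if_pos h, zero_add]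
    · rw [if_pos h, if_neg (not_lt.2 h.le), add_zero]
  unfold Comb.I
  linear_combination h1 + h2 + h3 + h4 +
    (1 + C.β k i + C.β k j - C.A i j k - C.A j i k - C.s i j - C.s' k l) * two

omit [Fintype κ] [DecidableEq κ] in
theorem sig_I (C : Comb ι κ) (φ : ZMod 2 →+* K) (hx : Function.Injective x)
    (h : a + a' + 1 ≤ Fintype.card ι) (k l : κ) (P G : Bi K x a a') :
    sig x a a' (fun i j => φ (C.I i j k l)) P G =
      sig x a a' (fun i j => φ (C.A i j k + C.s i j)) P G +
        sig x a a' (fun i j => φ (C.A j i l)) P G := by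
  have e : (fun i j => φ (C.I i j k l)) = fun i j =>
      (φ (C.A i j k + C.s i j) + φ (C.A j i l)) +
        (φ (C.B k l i + C.s' k l) + φ (C.B l k j)) := by
    funext i j
    simp only [← map_add]
    congr 1
    unfold Comb.I
    ring
  rw [e, sig_add, sig_add, sig_add, sig_left hx h, sig_right hx h, add_zero, add_zero]

theorem isotropic_bound {V T : Type} [AddCommGroup V] [Module K V] [Fintype T]
    (ev : V →ₗ[K] (T → K)) (hev : ∀ F, ev F = 0 → F = 0) (τ : T → T) (hτ : ∀ w, τ (τ w) = w)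
    (c : T → K) (hc : ∀ w, c w ≠ 0) (hiso : ∀ F G, ∑ w, c w * (ev F w * ev G (τ w)) = 0) :
    2 * Module.finrank K V ≤ Fintype.card T := by
  classical
  have hinj : Function.Injective ev := (injective_iff_map_eq_zero ev).2 hev
  let B : LinearMap.BilinForm K (T → K) :=
    LinearMap.mk₂ K (fun u v => ∑ w, c w * (u w * v (τ w)))
      (fun u u' v => by simp only [Pi.add_apply, add_mul, mul_add, sum_add_distrib])
      (fun r u v => by
        simp only [Pi.smul_apply, smul_eq_mul, mul_sum]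
        exact sum_congr rfl fun _ _ => by ring)
      (fun u v v' => by simp only [Pi.add_apply, mul_add, sum_add_distrib])
      (fun r u v => by
        simp only [Pi.smul_apply, smul_eq_mul, mul_sum]
        exact sum_congr rfl fun _ _ => by ring)
  have hB : ∀ u v, B u v = ∑ w, c w * (u w * v (τ w)) := fun _ _ => rfl
  have hker : LinearMap.ker B = ⊥ := by
    rw [LinearMap.ker_eq_bot']
    intro u hu
    funext w
    have e : B u (Pi.single (τ w) 1) = 0 := by rw [hu]; rfl
    rw [hB, sum_eq_single w, Pi.single_eq_same, mul_one] at e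
    · exact (mul_eq_zero.1 e).resolve_left (hc w)
    · intro w' _ hw'
      rw [Pi.single_eq_of_ne (fun e => hw' (by rw [← hτ w', e, hτ])), mul_zero, mul_zero]
    · intro hw; exact absurd (mem_univ _) hw
  have hle : LinearMap.range ev ≤ B.orthogonal (LinearMap.range ev) := by
    rintro _ ⟨G, rfl⟩ _ ⟨F, rfl⟩
    exact hiso F G
  have h1 := LinearMap.BilinForm.finrank_add_finrank_orthogonal' (B := B) (LinearMap.range ev)
  rw [hker, inf_bot_eq, finrank_bot, add_zero, Module.finrank_fintype_fun_eq_card] at h1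
  have h2 := Submodule.finrank_mono hle
  have h3 := LinearMap.finrank_range_of_inj hinj
  omega

theorem diag_zero [CharP K 2] (C : Comb ι κ) (hx : Function.Injective x)
    (hx2 : ∀ z : ι → K, ∑ i, x i * z i ^ 2 = 0 → ∀ i, z i = 0) (hm : 1 ≤ Fintype.card ι)
    (ha : a = (Fintype.card ι - 1) / 2) (ha' : a' = Fintype.card ι / 2)
    (hy : Function.Injective y) (hb : b + b' + 1 ≤ Fintype.card κ)
    {F : κ → κ → Bi K x a a'} (hF : F ∈ Bi (Bi K x a a') y b b')
    (hZ : ∀ k l, k ≠ l → ∀ i j, i ≠ j → C.I i j k l ≠ 0 → (F k l).1 i j = 0) (k : κ) :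
    F k k = 0 := by
  have h : a + a' + 1 ≤ Fintype.card ι := by omega
  let φ : ZMod 2 →+* K := ZMod.castHom (dvd_refl 2) K
  refine sig_nondeg hx hx2 hm ha ha' (C.η_inj k) (fun i => φ (C.β k i))
    (X := fun i j => φ (C.A i j k + C.s i j) + φ (C.A j i k)) ?_ ?_
  · intro i j hij
    have e := congrArg φ (C.hX k i j hij)
    simp only [map_add, apply_ite φ, map_one, map_zero] at e ⊢
    linear_combination e
  · intro G
    rw [sig_add]
    have hΛ : ∀ l, (fun k => -sig x a a' (fun i j => φ (C.A j i l)) (F k l) G) ∈ Low K y b :=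
      fun l => Submodule.neg_mem _
        (Low.map ((sig x a a' fun i j => φ (C.A j i l)).flip G) (hF.1 l))
    have hΓ : ∀ k, (fun l => sig x a a' (fun i j => φ (C.A i j k + C.s i j)) (F k l) G) ∈
        Low K y b' :=
      fun k => Low.map ((sig x a a' fun i j => φ (C.A i j k + C.s i j)).flip G) (hF.2 k)
    have := ext_diag hy hb
      (Λ := fun k l => -sig x a a' (fun i j => φ (C.A j i l)) (F k l) G)
      (Γ := fun k l => sig x a a' (fun i j => φ (C.A i j k + C.s i j)) (F k l) G) hΛ hΓ ?_ k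
    · rw [← this, neg_add_cancel]
    · intro k l hkl
      have e := sig_I C φ hx h k l (F k l) G
      have e0 : sig x a a' (fun i j => φ (C.I i j k l)) (F k l) G = 0 := by
        rw [sig_apply]
        refine sum_eq_zero fun i _ => sum_eq_zero fun j _ => ?_
        by_cases hij : i = j
        · subst hij; simp [cw_self]
        · by_cases hI : C.I i j k l = 0
          · rw [hI, map_zero, zero_mul]
          · rw [hZ k l hkl i j hij hI]; simp
      rw [e0] at e
      linear_combination e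

theorem vanish [CharP K 2] (C : Comb ι κ) (hx : Function.Injective x)
    (hx2 : ∀ z : ι → K, ∑ i, x i * z i ^ 2 = 0 → ∀ i, z i = 0) (hm : 1 ≤ Fintype.card ι)
    (ha : a = (Fintype.card ι - 1) / 2) (ha' : a' = Fintype.card ι / 2)
    (hy : Function.Injective y) (hb : b + b' + 1 ≤ Fintype.card κ)
    {F : κ → κ → Bi K x a a'} (hF : F ∈ Bi (Bi K x a a') y b b')
    (hZ : ∀ k l, k ≠ l → ∀ i j, i ≠ j → C.I i j k l ≠ 0 → (F k l).1 i j = 0) : F = 0 := by
  let Z : κ → κ → Submodule K (Bi K x a a') := fun k l =>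
    { carrier := {P | ∀ i j, i ≠ j → C.I i j k l ≠ 0 → P.1 i j = 0}
      add_mem' := fun {P Q} hP hQ i j hij hI => by
        have : (P + Q).1 i j = P.1 i j + Q.1 i j := rfl
        rw [this, hP i j hij hI, hQ i j hij hI, add_zero]
      zero_mem' := fun _ _ _ _ => rfl
      smul_mem' := fun c P hP i j hij hI => by
        have : (c • P).1 i j = c * P.1 i j := rfl
        rw [this, hP i j hij hI, mul_zero] }
  exact descent hy hb Z (fun F hF hZ => diag_zero C hx hx2 hm ha ha' hy hb hF hZ) F hF hZ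

theorem Comb.mem_T (C : Comb ι κ) (w : (ι × ι) × (κ × κ)) :
    w ∈ C.T ↔ w.1.1 ≠ w.1.2 ∧ w.2.1 ≠ w.2.2 ∧ C.I w.1.1 w.1.2 w.2.1 w.2.2 ≠ 0 := by
  simp [Comb.T]

theorem iso_sum [CharP K 2] (C : Comb ι κ) (hx : Function.Injective x)
    (h : a + a' + 1 ≤ Fintype.card ι) (hy : Function.Injective y)
    (hb : b + b' + 1 ≤ Fintype.card κ) {F G : κ → κ → Bi K x a a'}
    (hF : F ∈ Bi (Bi K x a a') y b b') (hG : G ∈ Bi (Bi K x a a') y b b') :
    ∑ w ∈ C.T, cw y w.2.1 w.2.2 * cw x w.1.1 w.1.2 *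
      ((F w.2.1 w.2.2).1 w.1.1 w.1.2 * (G w.2.2 w.2.1).1 w.1.2 w.1.1) = 0 := by
  let φ : ZMod 2 →+* K := ZMod.castHom (dvd_refl 2) K
  let f : (ι × ι) × (κ × κ) → K := fun w => cw y w.2.1 w.2.2 *
    (φ (C.I w.1.1 w.1.2 w.2.1 w.2.2) *
      (cw x w.1.1 w.1.2 * ((F w.2.1 w.2.2).1 w.1.1 w.1.2 * (G w.2.2 w.2.1).1 w.1.2 w.1.1)))
  have e1 : ∑ w ∈ C.T, cw y w.2.1 w.2.2 * cw x w.1.1 w.1.2 *
      ((F w.2.1 w.2.2).1 w.1.1 w.1.2 * (G w.2.2 w.2.1).1 w.1.2 w.1.1) = ∑ w ∈ C.T, f w := by
    refine sum_congr rfl fun w hw => ?_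
    obtain ⟨-, -, h3⟩ := (C.mem_T _).1 hw
    simp only [f]
    rw [zmod_two_eq_one h3, map_one, one_mul, mul_assoc]
  have e2 : ∑ w ∈ C.T, f w = ∑ w, f w := by
    refine sum_subset (subset_univ _) fun w _ hw => ?_
    rw [C.mem_T] at hw
    simp only [f]
    by_cases h1 : w.1.1 = w.1.2
    · rw [h1, cw_self]; simp
    · by_cases h2 : w.2.1 = w.2.2
      · rw [h2, cw_self]; simp
      · have : C.I w.1.1 w.1.2 w.2.1 w.2.2 = 0 := by
          by_contra h3
          exact hw ⟨h1, h2, h3⟩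
        rw [this]; simp
  have e3 : ∑ w, f w = ∑ k, ∑ l, cw y k l *
      sig x a a' (fun i j => φ (C.I i j k l)) (F k l) (G l k) := by
    rw [Fintype.sum_prod_type_right, Fintype.sum_prod_type]
    refine sum_congr rfl fun k _ => sum_congr rfl fun l _ => ?_
    rw [Fintype.sum_prod_type, sig_apply, mul_sum]
    refine sum_congr rfl fun i _ => ?_
    rw [mul_sum]
  rw [e1, e2, e3]
  simp only [sig_I C φ hx h, mul_add, sum_add_distrib]
  rw [sum_eq_zero fun k _ => line_right hy hb _ hF hG k, zero_add, sum_comm]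
  exact sum_eq_zero fun l _ => line_left hy hb _ hF hG l

theorem card_T_general [CharP K 2] (C : Comb ι κ) (hx : Function.Injective x)
    (hx2 : ∀ z : ι → K, ∑ i, x i * z i ^ 2 = 0 → ∀ i, z i = 0) (hm : 1 ≤ Fintype.card ι)
    (ha : a = (Fintype.card ι - 1) / 2) (ha' : a' = Fintype.card ι / 2)
    (hy : Function.Injective y) (hb : b + b' + 1 ≤ Fintype.card κ) :
    2 * (b * b' * (a * a')) ≤ C.T.card := by
  have h : a + a' + 1 ≤ Fintype.card ι := by omega
  let τ : C.T → C.T := fun w => ⟨((w.1.1.2, w.1.1.1), (w.1.2.2, w.1.2.1)), by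
    obtain ⟨h1, h2, h3⟩ := (C.mem_T _).1 w.2
    exact (C.mem_T _).2 ⟨h1.symm, h2.symm, by rwa [C.I_swap h1 h2]⟩⟩
  have h1 := isotropic_bound (V := Bi (Bi K x a a') y b b') (T := C.T)
    { toFun := fun F w => (F.1 w.1.2.1 w.1.2.2).1 w.1.1.1 w.1.1.2
      map_add' := fun _ _ => rfl
      map_smul' := fun _ _ => rfl }
    (fun F hF => Subtype.ext (vanish C hx hx2 hm ha ha' hy hb F.2 fun k l hkl i j hij hI =>
      congrFun hF ⟨((i, j), (k, l)), (C.mem_T _).2 ⟨hij, hkl, hI⟩⟩))
    τ (fun _ => rfl) (fun w => cw y w.1.2.1 w.1.2.2 * cw x w.1.1.1 w.1.1.2)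
    (fun w => by
      obtain ⟨h1, h2, -⟩ := (C.mem_T _).1 w.2
      exact mul_ne_zero (cw_ne_zero hy h2) (cw_ne_zero hx h1))
    (fun F G => (sum_coe_sort C.T _).trans (iso_sum C hx h hy hb F.2 G.2))
  rw [Fintype.card_coe] at h1
  have h4 := finrank_Bi (M := Bi K x a a') hy (b := b) (b' := b') (by omega) (by omega)
  have h5 := finrank_Bi (M := K) hx (b := a) (b' := a') (by omega) (by omega)
  rw [Module.finrank_self, mul_one] at h5
  have h6 := Nat.mul_le_mul_left (b * b') h5
  omega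

end General

theorem indep_squares {σ ι : Type} [Fintype ι] (e : ι → σ) (he : Function.Injective e)
    (z : ι → FractionRing (MvPolynomial σ (ZMod 2)))
    (hz : ∑ i, algebraMap (MvPolynomial σ (ZMod 2)) _ (MvPolynomial.X (e i)) * z i ^ 2 = 0)
    (u : ι) : z u = 0 := by
  classical
  obtain ⟨r, hr⟩ := IsLocalization.exist_integer_multiples_of_finite
    (nonZeroDivisors (MvPolynomial σ (ZMod 2))) z
  choose p hp using hr
  have hinj := IsFractionRing.injective (MvPolynomial σ (ZMod 2))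
    (FractionRing (MvPolynomial σ (ZMod 2)))
  have h1 : ∑ i, MvPolynomial.X (e i) * p i ^ 2 = 0 := by
    apply hinj
    simp only [map_sum, map_mul, map_pow, hp, map_zero, Algebra.smul_def]
    have := congrArg (fun t => algebraMap (MvPolynomial σ (ZMod 2)) _ r.1 ^ 2 * t) hz
    simp only [mul_zero, mul_sum] at this
    rw [← this]
    exact sum_congr rfl fun i _ => by ring
  have h2 := congrArg (MvPolynomial.pderiv (e u)) h1
  have two : (2 : MvPolynomial σ (ZMod 2)) = 0 := CharTwo.two_eq_zero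
  simp only [map_sum, Derivation.leibniz, Derivation.leibniz_pow, map_zero, smul_eq_mul,
    nsmul_eq_mul, Nat.cast_ofNat, two, zero_mul, mul_zero, zero_add] at h2
  rw [sum_eq_single u, MvPolynomial.pderiv_X_self, mul_one] at h2
  · have h3 := hp u
    rw [pow_eq_zero_iff two_ne_zero] at h2
    rw [h2, map_zero, Algebra.smul_def] at h3
    refine (mul_eq_zero.1 h3.symm).resolve_left ?_
    rw [map_eq_zero_iff _ hinj]
    exact nonZeroDivisors.ne_zero r.2
  · intro i _ hi
    rw [MvPolynomial.pderiv_X_of_ne (fun h => hi (he h)), mul_zero]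
  · intro h; exact absurd (mem_univ _) h

theorem Comb.card_T {m n : ℕ} (C : Comb (Fin m) (Fin n)) : 2 * (d m * d n) ≤ C.T.card := by
  rcases Nat.eq_zero_or_pos m with rfl | hm
  · simp [d]
  rcases Nat.eq_zero_or_pos n with rfl | hn
  · simp [d]
  have hinj := IsFractionRing.injective (MvPolynomial (Fin m ⊕ Fin n) (ZMod 2))
    (FractionRing (MvPolynomial (Fin m ⊕ Fin n) (ZMod 2)))
  have := card_T_general (K := FractionRing (MvPolynomial (Fin m ⊕ Fin n) (ZMod 2))) C
    (x := fun i => algebraMap _ _ (MvPolynomial.X (R := ZMod 2) (Sum.inl i : Fin m ⊕ Fin n)))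
    (y := fun k => algebraMap _ _ (MvPolynomial.X (R := ZMod 2) (Sum.inr k : Fin m ⊕ Fin n)))
    (a := (m - 1) / 2) (a' := m / 2) (b := (n - 1) / 2) (b' := n / 2)
    (fun i j e => Sum.inl_injective (MvPolynomial.X_injective (hinj e)))
    (indep_squares _ Sum.inl_injective) (by rw [Fintype.card_fin]; omega) (by simp) (by simp)
    (fun i j e => Sum.inr_injective (MvPolynomial.X_injective (hinj e)))
    (by rw [Fintype.card_fin]; omega)
  refine le_trans (le_of_eq ?_) this
  unfold d
  ring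

end Vale.Agent.P040Z
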