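import Mathlib

/-!
Internal objects of the proof of Zarankiewicz's conjecture (see notes/P040.md).

* `Star ι k v`: arcs `γ i` (parametrised by `ℝ`, constant `k` for `σ ≤ 0`, eventually constant
  `v i`) from the centre `k` to the points `v i`.
* `Comb ι κ`: the mod 2 winding data of a drawing of `K_{ι,κ}` whose stars at the vertices of `κ`
  are untangled.
* `Lifts g a b c`: `c` is the change of a continuous logarithm of `g` along `[a, b]`.
-/

namespace Vale.Agent.P040Z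

open Set

structure Star (ι : Type) (k : ℂ) (v : ι → ℂ) where
  γ : ι → ℝ → ℂ
  cont : ∀ i, Continuous (γ i)
  start : ∀ i σ, σ ≤ 0 → γ i σ = k
  fin : ∀ i, ∃ L : ℝ, ∀ σ, L ≤ σ → γ i σ = v i
  stay : ∀ i σ τ, σ ≤ τ → γ i σ = v i → γ i τ = v i
  ne_k : ∀ i σ, 0 < σ → γ i σ ≠ k
  ne_v : ∀ i j σ, i ≠ j → γ i σ ≠ v j

variable {ι : Type} {k : ℂ} {v : ι → ℂ}

/-- The non-vertex points with at least two parameters. -/
def Star.dbl (S : Star ι k v) : Set ℂ :=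
  {z | z ≠ k ∧ z ∉ range v ∧ ∃ a b : ι × ℝ, a ≠ b ∧ S.γ a.1 a.2 = z ∧ S.γ b.1 b.2 = z}

/-- Every non-vertex point has at most two parameters. -/
def Star.Two (S : Star ι k v) : Prop :=
  ∀ z, z ≠ k → z ∉ range v → ∀ a b c : ι × ℝ,
    S.γ a.1 a.2 = z → S.γ b.1 b.2 = z → S.γ c.1 c.2 = z → a = b ∨ a = c ∨ b = c

/-- Different arcs of the star meet only at the centre. -/
def Star.Disj (S : Star ι k v) : Prop :=
  ∀ i j, i ≠ j → ∀ s t : ℝ, 0 < s → S.γ i s ≠ S.γ j t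

structure Comb (ι κ : Type) where
  A : ι → ι → κ → ZMod 2
  B : κ → κ → ι → ZMod 2
  s : ι → ι → ZMod 2
  s' : κ → κ → ZMod 2
  η : κ → ι → ℝ
  β : κ → ι → ZMod 2
  η_inj : ∀ k, Function.Injective (η k)
  hs' : ∀ k l, k ≠ l → s' k l + s' l k = 1
  hX : ∀ k i j, i ≠ j →
    A i j k + A j i k + s i j = β k i + β k j + if η k j < η k i then 1 else 0

/-- The mod 2 intersection number of the edges `i k` and `j l`. -/
def Comb.I {ι κ : Type} (C : Comb ι κ) (i j : ι) (k l : κ) : ZMod 2 :=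
  C.A i j k + C.A j i l + C.s i j + (C.B k l i + C.B l k j + C.s' k l)

/-- The ordered pairs of independent edges with odd intersection number. -/
def Comb.T {ι κ : Type} [Fintype ι] [Fintype κ] [DecidableEq ι] [DecidableEq κ] (C : Comb ι κ) :
    Finset ((ι × ι) × (κ × κ)) :=
  Finset.univ.filter fun w => w.1.1 ≠ w.1.2 ∧ w.2.1 ≠ w.2.2 ∧ C.I w.1.1 w.1.2 w.2.1 w.2.2 ≠ 0

def Lifts (g : ℝ → ℂ) (a b : ℝ) (c : ℂ) : Prop :=
  ∃ Φ : ℝ → ℂ, ContinuousOn Φ (Icc a b) ∧ (∀ t ∈ Icc a b, Complex.exp (Φ t) = g t) ∧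
    c = Φ b - Φ a

end Vale.Agent.P040Z
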