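import Vale.Agent.P040Z.Defs

/-!
TASK Upper.  Zarankiewicz's straight-line drawing.

Plan.  Put `inl i` at the real point `(-1)^i / 2^i` and `inr k` at `(-1)^k / 2^k * I`; edges are the
segments (`AffineMap.lineMap`; define the arc of an edge `e` through the unique `(i, k)` with
`e = s(inl i, inr k)`).  With `α i = (-1)^i 2^i`, `β k = (-1)^k 2^k`, a point `x + y I` is in the interior of
the edge `(i, k)` iff `α i * x > 0`, `β k * y > 0` and `α i * x + β k * y = 1`.  So interiors avoid the axes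
(hence the vertices); two different edges with a common interior point have `i ≡ j`, `k ≡ l` mod 2,
`i ≠ j`, `k ≠ l`, `(α i - α j) x = (β l - β k) y`, so `i < j ↔ l < k`, and the point is determined by the
linear system: crossing points are in the image of
`{(i, j) | i < j, i ≡ j} × {(k, l) | k < l, k ≡ l}`, which has `d m * d n` elements.  No three edges
through a point: for `i₁ < i₂ < i₃`, `k₁ > k₂ > k₃` one gets `|α₂ - α₁| < |α₃ - α₂|` and
`|β₁ - β₂| > |β₂ - β₃|`, contradicting `(α₂ - α₁) x = (β₁ - β₂) y`, `(α₃ - α₂) x = (β₂ - β₃) y`.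
Proper: the affine homeomorphism `w ↦ (α j re w + β l im w - 1) + (α i re w + β k im w - 1) I`
restricted (`OpenPartialHomeomorph.restrOpen`) to the open quadrant.
-/

namespace Vale.Agent.P040Z

/-- The inverse coordinates of the vertices. -/
def up_al (i : ℕ) : ℝ := (-2) ^ i

theorem up_al_ne (i : ℕ) : up_al i ≠ 0 := pow_ne_zero _ (by norm_num)

theorem up_al_abs (i : ℕ) : |up_al i| = 2 ^ i := by simp [up_al, abs_pow]

theorem up_al_inj {i j : ℕ} (h : up_al i = up_al j) : i = j := by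
  have h2 : (2 : ℝ) ^ i = 2 ^ j := by rw [← up_al_abs, h, up_al_abs]
  exact pow_right_injective₀ (by norm_num) (by norm_num) h2

theorem up_al_add (i j : ℕ) : up_al (i + j) = up_al i * up_al j := pow_add _ _ _

theorem up_det {i j k l : ℕ} (h : j + k ≠ i + l) : up_al j * up_al k - up_al l * up_al i ≠ 0 := by
  rw [← up_al_add, ← up_al_add, sub_ne_zero]
  intro h'
  have := up_al_inj h'
  omega

theorem up_par {i j : ℕ} {x : ℝ} (hi : 0 < up_al i * x) (hj : 0 < up_al j * x) : i % 2 = j % 2 := by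
  have h : 0 < up_al (i + j) := by
    rw [up_al_add]
    have h1 := mul_pos hi hj
    have h2 : 0 ≤ x * x := mul_self_nonneg x
    by_contra hn
    nlinarith [mul_nonpos_of_nonpos_of_nonneg (not_lt.1 hn) h2]
  rcases Nat.even_or_odd (i + j) with h' | h'
  · rw [Nat.even_iff] at h'; omega
  · exact absurd (h'.pow_neg (by norm_num : (-2 : ℝ) < 0)) h.le.not_gt

theorem up_sign {i j : ℕ} {x y : ℝ} (hi : 0 < up_al i * x) (hj : 0 < up_al j * x)
    (hy : 0 < up_al i * y) : 0 < up_al j * y := by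
  have h1 := mul_pos (mul_pos hi hj) hy
  have h2 : 0 ≤ (up_al i * x) * (up_al i * x) := mul_self_nonneg _
  by_contra hn
  nlinarith [mul_nonpos_of_nonpos_of_nonneg (not_lt.1 hn) h2]

/-- The segment from the vertex `i` on the real axis to the vertex `k` on the imaginary axis. -/
noncomputable def up_seg (i k : ℕ) : C(unitInterval, ℂ) where
  toFun t := ((1 - (t : ℝ)) / up_al i : ℝ) + ((t : ℝ) / up_al k : ℝ) * Complex.I
  continuous_toFun := by fun_prop

theorem up_re (i k : ℕ) (t : unitInterval) : up_al i * (up_seg i k t).re = 1 - t := by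
  have := up_al_ne i
  simp only [up_seg, ContinuousMap.coe_mk, Complex.add_re, Complex.ofReal_re, Complex.mul_re,
    Complex.I_re, Complex.ofReal_im, Complex.I_im]
  field_simp
  ring

theorem up_im (i k : ℕ) (t : unitInterval) : up_al k * (up_seg i k t).im = t := by
  have := up_al_ne k
  simp only [up_seg, ContinuousMap.coe_mk, Complex.add_im, Complex.ofReal_re, Complex.mul_im,
    Complex.I_re, Complex.ofReal_im, Complex.I_im]
  field_simp
  ring

theorem up_eq {i k : ℕ} {t : unitInterval} {z : ℂ} (h1 : up_al i * z.re = 1 - t)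
    (h2 : up_al k * z.im = t) : up_seg i k t = z :=
  Complex.ext (mul_left_cancel₀ (up_al_ne i) ((up_re i k t).trans h1.symm))
    (mul_left_cancel₀ (up_al_ne k) ((up_im i k t).trans h2.symm))

/-- Description of the interior of a segment. -/
def up_in (i k : ℕ) (z : ℂ) : Prop :=
  0 < up_al i * z.re ∧ 0 < up_al k * z.im ∧ up_al i * z.re + up_al k * z.im = 1

theorem up_int {i k : ℕ} {z : ℂ} (h : z ∈ arcInterior (up_seg i k)) : up_in i k z := by
  obtain ⟨t, ⟨h0, h1⟩, rfl⟩ := h
  have h0' : (0 : ℝ) < t := h0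
  have h1' : (t : ℝ) < 1 := h1
  unfold up_in
  rw [up_re, up_im]
  exact ⟨by linarith, h0', by ring⟩

theorem up_range {i k : ℕ} {z : ℂ} (h1 : 0 < up_al i * z.re) (h2 : 0 < up_al k * z.im) :
    z ∈ Set.range (up_seg i k) ↔ up_al i * z.re + up_al k * z.im - 1 = 0 := by
  constructor
  · rintro ⟨t, rfl⟩
    rw [up_re, up_im]; ring
  · intro h
    exact ⟨⟨up_al k * z.im, h2.le, by linarith⟩, up_eq (by simp only; linarith) rfl⟩

theorem up_abs {i k : ℕ} {z : ℂ} (h : up_in i k z) :
    0 < |z.re| ∧ 0 < |z.im| ∧ 2 ^ i * |z.re| + 2 ^ k * |z.im| = 1 := by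
  refine ⟨abs_pos.2 fun e => ?_, abs_pos.2 fun e => ?_, ?_⟩
  · have := h.1; rw [e, mul_zero] at this; exact lt_irrefl _ this
  · have := h.2.1; rw [e, mul_zero] at this; exact lt_irrefl _ this
  · rw [← up_al_abs, ← up_al_abs, ← abs_mul, ← abs_mul, abs_of_pos h.1, abs_of_pos h.2.1, h.2.2]

theorem up_lt {i j k l : ℕ} {z : ℂ} (h : up_in i k z) (h' : up_in j l z) (hij : i < j) : l < k := by
  obtain ⟨hx, hy, h1⟩ := up_abs h
  obtain ⟨-, -, h2⟩ := up_abs h'
  have h3 : (2 : ℝ) ^ i < 2 ^ j := pow_lt_pow_right₀ (by norm_num) hij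
  by_contra hn
  have h4 : (2 : ℝ) ^ k ≤ 2 ^ l := pow_le_pow_right₀ (by norm_num) (not_lt.1 hn)
  nlinarith [mul_lt_mul_of_pos_right h3 hx, mul_le_mul_of_nonneg_right h4 hy.le]

theorem up_ne {i j k l : ℕ} {z : ℂ} (h : up_in i k z) (h' : up_in j l z) (hne : (i, k) ≠ (j, l)) :
    i ≠ j := by
  rintro rfl
  have h1 : up_al k * z.im = up_al l * z.im := by linarith [h.2.2, h'.2.2]
  have h2 : z.im ≠ 0 := abs_pos.1 (up_abs h).2.1
  exact hne (by rw [up_al_inj (mul_right_cancel₀ h2 h1)])

theorem up_three {i₁ i₂ i₃ k₁ k₂ k₃ : ℕ} {z : ℂ} (h₁ : up_in i₁ k₁ z) (h₂ : up_in i₂ k₂ z)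
    (h₃ : up_in i₃ k₃ z) (h12 : i₁ < i₂) (h23 : i₂ < i₃) : False := by
  obtain ⟨hx, hy, e1⟩ := up_abs h₁
  obtain ⟨-, -, e2⟩ := up_abs h₂
  obtain ⟨-, -, e3⟩ := up_abs h₃
  have a1 : (2 : ℝ) ^ (i₂ + 1) ≤ 2 ^ i₃ := pow_le_pow_right₀ (by norm_num) h23
  have a2 : (2 : ℝ) ^ (k₂ + 1) ≤ 2 ^ k₁ := pow_le_pow_right₀ (by norm_num) (up_lt h₁ h₂ h12)
  rw [pow_succ] at a1 a2
  have a3 : (0 : ℝ) < 2 ^ i₁ := by positivity
  have a4 : (0 : ℝ) < 2 ^ k₃ := by positivity
  nlinarith [mul_le_mul_of_nonneg_right a1 hx.le, mul_le_mul_of_nonneg_right a2 hy.le,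
    mul_pos a3 hx, mul_pos a4 hy]

/-- The common point of two lines. -/
noncomputable def up_pt (i j k l : ℕ) : ℂ :=
  ⟨(up_al k - up_al l) / (up_al j * up_al k - up_al l * up_al i),
    (up_al j - up_al i) / (up_al j * up_al k - up_al l * up_al i)⟩

theorem up_pt_eq {i j k l : ℕ} {z : ℂ} (h : up_in i k z) (h' : up_in j l z) (hij : i < j) :
    up_pt i j k l = z := by
  have hD := up_det (i := i) (j := j) (k := k) (l := l) (by have := up_lt h h' hij; omega)
  refine Complex.ext ?_ ?_
  · simp only [up_pt]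
    rw [div_eq_iff hD]
    linear_combination up_al l * h.2.2 - up_al k * h'.2.2
  · simp only [up_pt]
    rw [div_eq_iff hD]
    linear_combination up_al i * h'.2.2 - up_al j * h.2.2

/-- Pairs `2 a + j % 2 < j < r`. -/
def up_pairs (r : ℕ) : Finset (Σ _ : ℕ, ℕ) := (Finset.range r).sigma fun j => Finset.range (j / 2)

theorem up_card (r : ℕ) : (up_pairs r).card = d r := by
  simp only [up_pairs, Finset.card_sigma, Finset.card_range]
  induction r with
  | zero => simp [d]
  | succ r ih =>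
    rw [Finset.sum_range_succ, ih, d, d, Nat.add_sub_cancel]
    rcases Nat.eq_zero_or_pos r with rfl | hr
    · simp
    · rw [show (r + 1) / 2 = (r - 1) / 2 + 1 by omega]
      ring

/-- The candidates for crossing points. -/
noncomputable def up_pts (m n : ℕ) : Finset ℂ :=
  (up_pairs m ×ˢ up_pairs n).image fun w =>
    up_pt (2 * w.1.2 + w.1.1 % 2) w.1.1 w.2.1 (2 * w.2.2 + w.2.1 % 2)

theorem up_mem {m n i j k l : ℕ} {z : ℂ} (h : up_in i k z) (h' : up_in j l z) (hij : i < j)
    (hj : j < m) (hk : k < n) : z ∈ up_pts m n := by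
  have h1 := up_par h.1 h'.1
  have h2 := up_par h.2.1 h'.2.1
  have h3 := up_lt h h' hij
  refine Finset.mem_image.2 ⟨(⟨j, i / 2⟩, ⟨k, l / 2⟩), ?_, ?_⟩
  · simp only [up_pairs, Finset.mem_product, Finset.mem_sigma, Finset.mem_range]
    omega
  · simp only
    rw [show 2 * (i / 2) + j % 2 = i by omega, show 2 * (l / 2) + k % 2 = l by omega]
    exact up_pt_eq h h' hij

theorem up_homeo {a b c e : ℝ} (hD : a * e - b * c ≠ 0) : ∃ h : ℂ ≃ₜ ℂ, ∀ w,
    (h w).re = a * w.re + b * w.im - 1 ∧ (h w).im = c * w.re + e * w.im - 1 := by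
  refine ⟨⟨⟨fun w => (a * w.re + b * w.im - 1 : ℝ) + (c * w.re + e * w.im - 1 : ℝ) * Complex.I,
    fun u => ((e * (u.re + 1) - b * (u.im + 1)) / (a * e - b * c) : ℝ) +
      ((a * (u.im + 1) - c * (u.re + 1)) / (a * e - b * c) : ℝ) * Complex.I,
    fun w => ?_, fun u => ?_⟩, by fun_prop, by fun_prop⟩, fun w => ?_⟩
  · refine Complex.ext ?_ ?_ <;>
    · simp only [Complex.add_re, Complex.add_im, Complex.ofReal_re, Complex.mul_re,
        Complex.mul_im, Complex.I_re, Complex.ofReal_im, Complex.I_im, mul_zero, mul_one,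
        sub_zero, add_zero, zero_add]
      rw [div_eq_iff hD]
      ring
  · have hi := mul_inv_cancel₀ hD
    refine Complex.ext ?_ ?_ <;>
      simp only [Complex.add_re, Complex.add_im, Complex.ofReal_re, Complex.mul_re,
        Complex.mul_im, Complex.I_re, Complex.ofReal_im, Complex.I_im, mul_zero, mul_one,
        sub_zero, add_zero, zero_add, div_eq_mul_inv]
    · linear_combination (u.re + 1) * hi
    · linear_combination (u.im + 1) * hi
  · constructor <;>
    · simp only [Homeomorph.homeomorph_mk_coe, Equiv.coe_fn_mk, Complex.add_re, Complex.add_im,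
        Complex.ofReal_re, Complex.mul_re, Complex.mul_im, Complex.I_re, Complex.ofReal_im,
        Complex.I_im]
      ring

theorem up_edge {m n : ℕ} (e : (completeBipartiteGraph (Fin m) (Fin n)).edgeSet) :
    ∃ w : Fin m × Fin n, (e : Sym2 (Fin m ⊕ Fin n)) = s(Sum.inl w.1, Sum.inr w.2) := by
  obtain ⟨e, he⟩ := e
  induction e using Sym2.ind with
  | _ u v =>
    rw [SimpleGraph.mem_edgeSet] at he
    rcases u with u | u <;> rcases v with v | v
    · simp at he
    · exact ⟨(u, v), rfl⟩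
    · exact ⟨(v, u), Sym2.eq_swap⟩
    · simp at he

theorem upper (m n : ℕ) : ∃ D : Drawing (completeBipartiteGraph (Fin m) (Fin n)),
    D.Proper ∧ D.crossings ≤ d m * d n := by
  choose ed hed using up_edge (m := m) (n := n)
  have hne : ∀ e f, e ≠ f → (((ed e).1 : ℕ), ((ed e).2 : ℕ)) ≠ (((ed f).1 : ℕ), ((ed f).2 : ℕ)) :=
    fun e f h h' => h (Subtype.ext (by
      rw [hed, hed, Fin.ext (Prod.ext_iff.1 h').1, Fin.ext (Prod.ext_iff.1 h').2]))
  have hsub : crossingPoints (fun e => up_seg (ed e).1 (ed e).2) ⊆ up_pts m n := by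
    rintro z ⟨e, f, hef, he, hf⟩
    rcases lt_or_gt_of_ne (up_ne (up_int he) (up_int hf) (hne e f hef)) with h | h
    · exact up_mem (up_int he) (up_int hf) h (ed f).1.2 (ed e).2.2
    · exact up_mem (up_int hf) (up_int he) h (ed e).1.2 (ed f).2.2
  refine ⟨⟨Sum.elim (fun i => up_seg i 0 0) fun k => up_seg 0 k 1, ?_,
    fun e => up_seg (ed e).1 (ed e).2, fun e => ⟨_, _, hed e, ?_, ?_⟩, fun e s t h => ?_,
    fun e v h => ?_, (up_pts m n).finite_toSet.subset hsub, fun e f g hef heg hfg => ?_⟩,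
    fun e f hef z hz => ?_, ?_⟩
  · rintro (u | u) (v | v) h <;> simp only [Sum.elim_inl, Sum.elim_inr] at h
    · have h1 := up_re u 0 0
      have h2 := up_re v 0 0
      rw [h] at h1
      have h3 : (up_seg v 0 0).re ≠ 0 := fun e => by simp [e] at h2
      rw [Fin.ext (up_al_inj (mul_right_cancel₀ h3 (h1.trans h2.symm)))]
    · have h2 := up_im 0 v 1
      rw [← h] at h2
      simp [up_seg] at h2
    · have h2 := up_im 0 u 1
      rw [h] at h2
      simp [up_seg] at h2
    · have h1 := up_im 0 u 1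
      have h2 := up_im 0 v 1
      rw [h] at h1
      have h3 : (up_seg 0 v 1).im ≠ 0 := fun e => by simp [e] at h2
      rw [Fin.ext (up_al_inj (mul_right_cancel₀ h3 (h1.trans h2.symm)))]
  · simp [up_seg]
  · simp [up_seg]
  · have h1 := up_im (ed e).1 (ed e).2 s
    rw [h, up_im] at h1
    exact Subtype.ext h1.symm
  · obtain ⟨h1, h2, -⟩ := up_int h
    rcases v with v | v
    · simp [up_seg] at h2
    · simp [up_seg] at h1
  · refine Set.eq_empty_of_forall_notMem fun z hz => ?_
    have h1 := up_int hz.1.1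
    have h2 := up_int hz.1.2
    have h3 := up_int hz.2
    have a := up_ne h1 h2 (hne e f hef)
    have b := up_ne h1 h3 (hne e g heg)
    have c := up_ne h2 h3 (hne f g hfg)
    rcases lt_or_gt_of_ne a with a | a <;> rcases lt_or_gt_of_ne b with b | b <;>
      rcases lt_or_gt_of_ne c with c | c
    exacts [up_three h1 h2 h3 a c, up_three h1 h3 h2 b c, by omega, up_three h3 h1 h2 b a,
      up_three h2 h1 h3 a b, by omega, up_three h2 h3 h1 c b, up_three h3 h2 h1 c a]
  · have h1 := up_int hz.1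
    have h2 := up_int hz.2
    have hD : ((ed f).1 : ℕ) + (ed e).2 ≠ (ed e).1 + (ed f).2 := by
      rcases lt_or_gt_of_ne (up_ne h1 h2 (hne e f hef)) with h | h
      · have := up_lt h1 h2 h; omega
      · have := up_lt h2 h1 h; omega
    obtain ⟨h, hh⟩ := up_homeo (up_det hD)
    have hU : IsOpen {w : ℂ | 0 < up_al (ed e).1 * w.re ∧ 0 < up_al (ed e).2 * w.im} :=
      (isOpen_lt continuous_const (continuous_const.mul Complex.continuous_re)).inter
        (isOpen_lt continuous_const (continuous_const.mul Complex.continuous_im))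
    refine ⟨h.toOpenPartialHomeomorph.restrOpen _ hU, ⟨trivial, h1.1, h1.2.1⟩, ?_,
      fun w hw => ⟨?_, ?_⟩⟩
    · refine Complex.ext (((hh z).1.trans ?_)) ((hh z).2.trans ?_)
      · rw [h2.2.2, sub_self, Complex.zero_re]
      · rw [h1.2.2, sub_self, Complex.zero_im]
    · exact (up_range hw.2.1 hw.2.2).trans (by rw [← (hh w).2]; rfl)
    · exact (up_range (up_sign h1.1 h2.1 hw.2.1) (up_sign h1.2.1 h2.2.1 hw.2.2)).trans
        (by rw [← (hh w).1]; rfl)
  · refine (Set.ncard_le_ncard hsub (up_pts m n).finite_toSet).trans ?_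
    rw [Set.ncard_coe_finset, ← up_card, ← up_card, ← Finset.card_product]
    exact Finset.card_image_le

end Vale.Agent.P040Z
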