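import Vale.Agent.P040Z.Lower
import Vale.Agent.P040Z.Upper

namespace Vale.Agent.P040Z

theorem final (m n : ℕ) :
    (∀ D : Drawing (completeBipartiteGraph (Fin m) (Fin n)), d m * d n ≤ D.crossings) ∧
      ∃ D : Drawing (completeBipartiteGraph (Fin m) (Fin n)),
        D.Proper ∧ D.crossings = d m * d n := by
  refine ⟨fun D => lower D, ?_⟩
  obtain ⟨D, h1, h2⟩ := upper m n
  exact ⟨D, h1, le_antisymm h2 (lower D)⟩

end Vale.Agent.P040Z
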