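import Vale.Agent.P040Z.Comb

/-!
TASK Lift.  API for `Lifts` (change of a continuous logarithm along an interval).

Plan.  Existence: clamp `g` to `fun t => g (projIcc a b _ t)` (continuous, nonvanishing on `ℝ`) and use
`Complex.exists_continuousOn_eqOn_exp_comp` with `U = univ` (`ℝ` and `ℝ × ℝ` are contractible, so
`IsSimplyConnected univ`, e.g. through `Convex.contractibleSpace`/`Homeomorph.Set.univ`).
Uniqueness: two lifts differ by a function, continuous on `Icc a b`, with values in `2 π i ℤ`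
(`Complex.exp_eq_exp_iff_exists_int`); it is constant (`IsPreconnected.constant_of_mapsTo` with a
discrete set, or the intermediate value theorem for `im / (2 π)`).
`rect`: lift the clamped `F` on `ℝ × ℝ` to `Φ`; the four restrictions of `Φ` are lifts; use
uniqueness.  `half`: `t ↦ log (g a) + log (g t / g a)` is a lift (`g t / g a` has positive real
part, so it is in the slit plane), its change is `log (g b / g a)` with `|arg| < π / 2`
(`Complex.abs_arg_lt_pi_div_two_iff`).
-/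

namespace Vale.Agent.P040Z

open Set

theorem lift_global {X : Type} [NormedAddCommGroup X] [NormedSpace ℝ X] {g : X → ℂ}
    (hg : Continuous g) (h0 : ∀ x, g x ≠ 0) :
    ∃ f : X → ℂ, Continuous f ∧ ∀ x, Complex.exp (f x) = g x := by
  have hc : ContractibleSpace (univ : Set X) :=
    (convex_univ (𝕜 := ℝ)).contractibleSpace ⟨0, trivial⟩
  have hs : IsSimplyConnected (univ : Set X) := by
    unfold IsSimplyConnected
    infer_instance
  obtain ⟨f, hf, he⟩ := Complex.exists_continuousOn_eqOn_exp_comp hs isOpen_univ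
    hg.continuousOn (by rintro ⟨x, -, hx⟩; exact h0 x hx)
  exact ⟨f, continuousOn_univ.mp hf, fun x => he (mem_univ x)⟩

theorem clamp_mem {a b : ℝ} (hab : a ≤ b) (t : ℝ) : max a (min t b) ∈ Icc a b :=
  ⟨le_max_left _ _, max_le hab (min_le_right _ _)⟩

theorem clamp_eq {a b t : ℝ} (ht : t ∈ Icc a b) : max a (min t b) = t := by
  rw [min_eq_left ht.2, max_eq_right ht.1]

theorem Lifts.exists_of {g : ℝ → ℂ} {a b : ℝ} (hab : a ≤ b) (hg : ContinuousOn g (Icc a b))
    (h0 : ∀ t ∈ Icc a b, g t ≠ 0) : ∃ c, Lifts g a b c := by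
  have hc : Continuous fun t : ℝ => g (max a (min t b)) :=
    hg.comp_continuous (by fun_prop) (clamp_mem hab)
  obtain ⟨f, hf, he⟩ := lift_global hc (fun t => h0 _ (clamp_mem hab t))
  refine ⟨f b - f a, f, hf.continuousOn, fun t ht => ?_, rfl⟩
  rw [he, clamp_eq ht]

theorem Lifts.unique {g : ℝ → ℂ} {a b : ℝ} {c c' : ℂ} (hab : a ≤ b) (h : Lifts g a b c)
    (h' : Lifts g a b c') : c = c' := by
  obtain ⟨Φ, hΦ, he, rfl⟩ := h
  obtain ⟨Ψ, hΨ, he', rfl⟩ := h'
  have hint : ∀ t ∈ Icc a b, ∃ n : ℤ, Φ t = Ψ t + n * (2 * Real.pi * Complex.I) := fun t ht =>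
    Complex.exp_eq_exp_iff_exists_int.mp ((he t ht).trans (he' t ht).symm)
  have hpi : (0 : ℝ) < 2 * Real.pi := by positivity
  set u : ℝ → ℝ := fun t => (Φ t - Ψ t).im / (2 * Real.pi) with hu
  have huc : ContinuousOn u (Icc a b) :=
    (Complex.continuous_im.comp_continuousOn (hΦ.sub hΨ)).div_const _
  have hval : ∀ t ∈ Icc a b, ∃ n : ℤ, u t = n ∧
      Φ t - Ψ t = n * (2 * Real.pi * Complex.I) := by
    intro t ht
    obtain ⟨n, hn⟩ := hint t ht
    have e : Φ t - Ψ t = n * (2 * Real.pi * Complex.I) := by rw [hn]; ring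
    refine ⟨n, ?_, e⟩
    simp only [hu, e]
    rw [div_eq_iff hpi.ne']
    simp
  have hmaps : MapsTo u (Icc a b) (range (Int.cast : ℤ → ℝ)) := fun t ht => by
    obtain ⟨n, hn, -⟩ := hval t ht
    exact ⟨n, hn.symm⟩
  have hd : IsDiscrete (range (Int.cast : ℤ → ℝ)) :=
    Int.isClosedEmbedding_coe_real.isEmbedding.isInducing.isDiscrete_range
  have hconst : u a = u b :=
    isPreconnected_Icc.constant_of_mapsTo hd huc hmaps (left_mem_Icc.mpr hab)
      (right_mem_Icc.mpr hab)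
  obtain ⟨n, hn, hn'⟩ := hval a (left_mem_Icc.mpr hab)
  obtain ⟨m, hm, hm'⟩ := hval b (right_mem_Icc.mpr hab)
  have hnm : n = m := by
    have : (n : ℝ) = m := by rw [← hn, ← hm, hconst]
    exact_mod_cast this
  subst hnm
  linear_combination hm' - hn'

theorem Lifts.exp_mul {g : ℝ → ℂ} {a b : ℝ} {c : ℂ} (hab : a ≤ b) (h : Lifts g a b c) :
    Complex.exp c * g a = g b := by
  obtain ⟨Φ, -, he, rfl⟩ := h
  rw [← he a (left_mem_Icc.mpr hab), ← he b (right_mem_Icc.mpr hab), ← Complex.exp_add]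
  congr 1
  ring

theorem Lifts.neg {g : ℝ → ℂ} {a b : ℝ} {c : ℂ} (h : Lifts g a b c) :
    Lifts (fun t => -g t) a b c := by
  obtain ⟨Φ, hΦ, he, rfl⟩ := h
  refine ⟨fun t => Φ t + Real.pi * Complex.I, hΦ.add continuousOn_const, fun t ht => ?_, by ring⟩
  rw [Complex.exp_add, Complex.exp_pi_mul_I, he t ht]
  ring

theorem Lifts.add {g : ℝ → ℂ} {a b e : ℝ} {c₁ c₂ c : ℂ} (hab : a ≤ b) (hbe : b ≤ e)
    (h₁ : Lifts g a b c₁) (h₂ : Lifts g b e c₂) (h : Lifts g a e c) : c = c₁ + c₂ := by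
  obtain ⟨Φ, hΦ, he, rfl⟩ := h
  have s1 : Icc a b ⊆ Icc a e := Icc_subset_Icc_right hbe
  have s2 : Icc b e ⊆ Icc a e := Icc_subset_Icc_left hab
  have e1 := h₁.unique hab ⟨Φ, hΦ.mono s1, fun t ht => he t (s1 ht), rfl⟩
  have e2 := h₂.unique hbe ⟨Φ, hΦ.mono s2, fun t ht => he t (s2 ht), rfl⟩
  rw [e1, e2]
  ring

theorem Lifts.rect {F : ℝ → ℝ → ℂ} {a b a' b' : ℝ} (hab : a ≤ b) (hab' : a' ≤ b')
    (hF : ContinuousOn (fun p : ℝ × ℝ => F p.1 p.2) (Icc a b ×ˢ Icc a' b'))
    (h0 : ∀ s ∈ Icc a b, ∀ t ∈ Icc a' b', F s t ≠ 0) {c₁ c₂ c₃ c₄ : ℂ}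
    (h₁ : Lifts (fun s => F s a') a b c₁) (h₂ : Lifts (fun t => F b t) a' b' c₂)
    (h₃ : Lifts (fun t => F a t) a' b' c₃) (h₄ : Lifts (fun s => F s b') a b c₄) :
    c₁ + c₂ = c₃ + c₄ := by
  have hc : Continuous fun p : ℝ × ℝ => F (max a (min p.1 b)) (max a' (min p.2 b')) :=
    hF.comp_continuous (f := fun p : ℝ × ℝ => (max a (min p.1 b), max a' (min p.2 b')))
      (by fun_prop) (fun p => ⟨clamp_mem hab _, clamp_mem hab' _⟩)
  obtain ⟨f, hf, he⟩ := lift_global hc
    (fun p => h0 _ (clamp_mem hab _) _ (clamp_mem hab' _))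
  have he' : ∀ s ∈ Icc a b, ∀ t ∈ Icc a' b', Complex.exp (f (s, t)) = F s t := by
    intro s hs t ht
    rw [he]
    simp only [clamp_eq hs, clamp_eq ht]
  have la := left_mem_Icc.mpr hab
  have ra := right_mem_Icc.mpr hab
  have la' := left_mem_Icc.mpr hab'
  have ra' := right_mem_Icc.mpr hab'
  have e1 := h₁.unique hab ⟨fun s => f (s, a'), by fun_prop, fun s hs => he' s hs _ la', rfl⟩
  have e2 := h₂.unique hab' ⟨fun t => f (b, t), by fun_prop, fun t ht => he' _ ra t ht, rfl⟩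
  have e3 := h₃.unique hab' ⟨fun t => f (a, t), by fun_prop, fun t ht => he' _ la t ht, rfl⟩
  have e4 := h₄.unique hab ⟨fun s => f (s, b'), by fun_prop, fun s hs => he' s hs _ ra', rfl⟩
  rw [e1, e2, e3, e4]
  ring

theorem Lifts.half {g : ℝ → ℂ} {a b : ℝ} {c : ℂ} (hab : a ≤ b) (hg : ContinuousOn g (Icc a b))
    (h : Lifts g a b c) (hp : ∀ t ∈ Icc a b, 0 < (g t * (starRingEnd ℂ) (g a)).re) :
    |c.im| < Real.pi / 2 := by
  have la := left_mem_Icc.mpr hab
  have ra := right_mem_Icc.mpr hab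
  have ha : g a ≠ 0 := by
    intro h0
    have := hp a la
    rw [h0] at this
    simp at this
  have hre : ∀ t ∈ Icc a b, 0 < (g t / g a).re := by
    intro t ht
    have hn : 0 < Complex.normSq (g a) := Complex.normSq_pos.mpr ha
    have e : (g t / g a).re = (g t * (starRingEnd ℂ) (g a)).re / Complex.normSq (g a) := by
      rw [Complex.div_re]
      simp only [Complex.mul_re, Complex.conj_re, Complex.conj_im]
      ring
    rw [e]
    exact div_pos (hp t ht) hn
  have hne : ∀ t ∈ Icc a b, g t / g a ≠ 0 := by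
    intro t ht h0
    have := hre t ht
    rw [h0] at this
    simp at this
  have hl : Lifts g a b (Complex.log (g b / g a)) := by
    refine ⟨fun t => Complex.log (g a) + Complex.log (g t / g a), ?_, fun t ht => ?_, ?_⟩
    · refine continuousOn_const.add ?_
      exact (hg.div_const _).clog fun t ht => Or.inl (hre t ht)
    · rw [Complex.exp_add, Complex.exp_log ha, Complex.exp_log (hne t ht)]
      field_simp
    · simp [div_self ha]
  rw [h.unique hab hl, Complex.log_im]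
  exact Complex.abs_arg_lt_pi_div_two_iff.mpr (Or.inl (hre b ra))

end Vale.Agent.P040Z
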