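import Mathlib

/-!
Functions on a finite set of nodes that are polynomial of bounded degree, with values in a module;
extension to the diagonal, descent, and dimension bounds.
-/

namespace Vale.Agent.P040Z

open Finset

variable {K : Type} [Field K] {ι : Type} {M N P : Type} [AddCommGroup M] [Module K M]
  [AddCommGroup N] [Module K N] [AddCommGroup P] [Module K P]

/-- Functions of the node that are polynomial of degree `< b` in `y`. -/
def Low (M : Type) [AddCommGroup M] [Module K M] (y : ι → K) (b : ℕ) : Submodule K (ι → M) :=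
  Submodule.span K {f | ∃ r < b, ∃ c : M, f = fun k => y k ^ r • c}

variable {y : ι → K}

theorem Low.mon {b r : ℕ} (h : r < b) (c : M) : (fun k => y k ^ r • c) ∈ Low M y b :=
  Submodule.subset_span ⟨r, h, c, rfl⟩

theorem Low.mono {b b' : ℕ} (h : b ≤ b') : Low M y b ≤ Low M y b' :=
  Submodule.span_mono fun _ ⟨r, hr, c, e⟩ => ⟨r, lt_of_lt_of_le hr h, c, e⟩

theorem Low.eq_zero {f : ι → M} (h : f ∈ Low M y 0) : f = 0 := by
  have : Low M y 0 = ⊥ := by
    rw [Low, Submodule.span_eq_bot]
    rintro _ ⟨r, hr, -⟩
    exact absurd hr (Nat.not_lt_zero r)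
  rwa [this, Submodule.mem_bot] at h

theorem Low.map (φ : M →ₗ[K] N) {b : ℕ} {f : ι → M} (h : f ∈ Low M y b) :
    (fun k => φ (f k)) ∈ Low N y b := by
  induction h using Submodule.span_induction with
  | mem f hf =>
    obtain ⟨r, hr, c, rfl⟩ := hf
    simp only [map_smul]
    exact Low.mon hr _
  | zero => simp only [Pi.zero_apply, map_zero]; exact Submodule.zero_mem _
  | add f g _ _ hf hg => simp only [Pi.add_apply, map_add]; exact Submodule.add_mem _ hf hg
  | smul a f _ hf => simp only [Pi.smul_apply, map_smul]; exact Submodule.smul_mem _ a hf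

theorem Low.bil (μ : M →ₗ[K] N →ₗ[K] P) {b b' : ℕ} {f : ι → M} {g : ι → N}
    (hf : f ∈ Low M y b) (hg : g ∈ Low N y b') :
    (fun k => μ (f k) (g k)) ∈ Low P y (b + b' - 1) := by
  induction hf using Submodule.span_induction with
  | mem f hf =>
    obtain ⟨r, hr, c, rfl⟩ := hf
    induction hg using Submodule.span_induction with
    | mem g hg =>
      obtain ⟨r', hr', c', rfl⟩ := hg
      simp only [map_smul, LinearMap.smul_apply, smul_smul, ← pow_add]
      exact Low.mon (by omega) _
    | zero => simp only [Pi.zero_apply, map_zero]; exact Submodule.zero_mem _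
    | add f g _ _ hf hg => simp only [Pi.add_apply, map_add]; exact Submodule.add_mem _ hf hg
    | smul a g _ hg =>
      simp only [Pi.smul_apply, LinearMap.map_smul_of_tower]
      have := Submodule.smul_mem _ a hg
      simp only [LinearMap.map_smul_of_tower] at this
      exact this
  | zero =>
    simp only [Pi.zero_apply, map_zero, LinearMap.zero_apply]; exact Submodule.zero_mem _
  | add f g _ _ hf hg =>
    simp only [Pi.add_apply, map_add, LinearMap.add_apply]; exact Submodule.add_mem _ hf hg
  | smul a f _ hf =>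
    simp only [Pi.smul_apply, map_smul, LinearMap.smul_apply]; exact Submodule.smul_mem _ a hf

theorem Low.smul {b b' : ℕ} {f : ι → K} {g : ι → M} (hf : f ∈ Low K y b) (hg : g ∈ Low M y b') :
    (fun k => f k • g k) ∈ Low M y (b + b' - 1) :=
  Low.bil (LinearMap.lsmul K M) hf hg

theorem Low.const (c : M) : (fun _ => c) ∈ Low M y 1 := by
  have := Low.mon (y := y) (Nat.zero_lt_one) c
  simpa using this

theorem Low.self : y ∈ Low K y 2 := by
  have := Low.mon (y := y) (r := 1) (b := 2) (by omega) (1 : K)
  simpa using this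

theorem Low.lin (z : K) : (fun k => y k - z) ∈ Low K y 2 :=
  Submodule.sub_mem _ Low.self (Low.mono (by omega) (Low.const z))

theorem Low.prod [DecidableEq ι] (S : Finset ι) :
    (fun k => ∏ s ∈ S, (y k - y s)) ∈ Low K y (S.card + 1) := by
  induction S using Finset.induction_on with
  | empty => simpa using Low.const (y := y) (1 : K)
  | insert a S ha ih =>
    have := Low.smul (Low.lin (y := y) (y a)) ih
    simp only [prod_insert ha, card_insert_of_notMem ha]
    exact Low.mono (by omega) this

theorem Low.div {b : ℕ} {f : ι → M} (h : f ∈ Low M y (b + 1)) (l : ι) :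
    ∃ g ∈ Low M y b, ∀ k, f k - f l = (y k - y l) • g k := by
  induction h using Submodule.span_induction with
  | mem f hf =>
    obtain ⟨r, hr, c, rfl⟩ := hf
    refine ⟨∑ i ∈ range r, fun k => y k ^ i • (y l ^ (r - 1 - i) • c), ?_, fun k => ?_⟩
    · exact Submodule.sum_mem _ fun i hi => Low.mon (by have := mem_range.1 hi; omega) _
    · simp only [Finset.sum_apply, smul_smul, ← Finset.sum_smul, ← sub_smul]
      rw [mul_comm, (Commute.all (y k) (y l)).geom_sum₂_mul]
  | zero => exact ⟨0, Submodule.zero_mem _, fun k => by simp⟩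
  | add f g _ _ hf hg =>
    obtain ⟨f', hf', e⟩ := hf
    obtain ⟨g', hg', e'⟩ := hg
    refine ⟨f' + g', Submodule.add_mem _ hf' hg', fun k => ?_⟩
    simp only [Pi.add_apply, smul_add, ← e, ← e']
    abel
  | smul a f _ hf =>
    obtain ⟨f', hf', e⟩ := hf
    refine ⟨a • f', Submodule.smul_mem _ a hf', fun k => ?_⟩
    simp only [Pi.smul_apply]
    rw [smul_comm, ← e, smul_sub]

variable [Fintype ι] [DecidableEq ι]

/-- The barycentric weights. -/
def wt (y : ι → K) (k : ι) : K := Lagrange.nodalWeight univ y k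

theorem wt_ne_zero (hy : Function.Injective y) (k : ι) : wt y k ≠ 0 :=
  Lagrange.nodalWeight_ne_zero hy.injOn (mem_univ k)

theorem sum_wt_pow (hy : Function.Injective y) {r : ℕ} (hr : r + 2 ≤ Fintype.card ι) :
    ∑ k, wt y k * y k ^ r = 0 := by
  have h := Lagrange.coeff_eq_sum (s := univ) (v := y) hy.injOn
    (P := Polynomial.X ^ r) (by
      rw [Polynomial.degree_X_pow, card_univ]
      exact_mod_cast (by omega : r < Fintype.card ι))
  rw [Polynomial.coeff_X_pow, if_neg (by rw [card_univ]; omega)] at h
  rw [h]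
  refine sum_congr rfl fun k _ => ?_
  rw [wt, Lagrange.nodalWeight, prod_inv_distrib, Polynomial.eval_pow, Polynomial.eval_X,
    div_eq_mul_inv, mul_comm]

theorem Low.sum_eq_zero (hy : Function.Injective y) {b : ℕ} (hb : b + 1 ≤ Fintype.card ι)
    {f : ι → M} (h : f ∈ Low M y b) : ∑ k, wt y k • f k = 0 := by
  induction h using Submodule.span_induction with
  | mem f hf =>
    obtain ⟨r, hr, c, rfl⟩ := hf
    simp only [smul_smul, ← Finset.sum_smul]
    rw [sum_wt_pow hy (by omega), zero_smul]
  | zero => simp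
  | add f g _ _ hf hg => simp only [Pi.add_apply, smul_add, sum_add_distrib, hf, hg, add_zero]
  | smul a f _ hf =>
    simp only [Pi.smul_apply, smul_comm (wt y _) a, ← Finset.smul_sum, hf, smul_zero]

theorem ext_diag (hy : Function.Injective y) {b b' : ℕ} (h : b + b' + 1 ≤ Fintype.card ι)
    {Λ Γ : ι → ι → M} (hΛ : ∀ l, (fun k => Λ k l) ∈ Low M y b) (hΓ : ∀ k, Γ k ∈ Low M y b')
    (hoff : ∀ k l, k ≠ l → Λ k l = Γ k l) (k₀ : ι) : Λ k₀ k₀ = Γ k₀ k₀ := by
  have hc : (univ.erase k₀).card = Fintype.card ι - 1 := by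
    rw [card_erase_of_mem (mem_univ _), card_univ]
  obtain ⟨S, hS, hSc⟩ := exists_subset_card_eq (s := univ.erase k₀) (n := b') (by omega)
  set S' := univ.erase k₀ \ S with hS'
  have hS'c : S'.card = Fintype.card ι - 1 - b' := by
    rw [hS', card_sdiff_of_subset hS, hc, hSc]
  set p : ι → K := fun k => ∏ s ∈ S, (y k - y s) with hp
  set q : ι → K := fun k => ∏ s ∈ S', (y k - y s) with hq
  have h1 : ∀ l, ∑ k, wt y k • p k • Λ k l = 0 := fun l =>
    Low.sum_eq_zero hy (by omega) (Low.smul (Low.prod (y := y) S) (hΛ l))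
  have h2 : ∀ k, ∑ l, wt y l • q l • Γ k l = 0 := fun k =>
    Low.sum_eq_zero hy (by omega) (Low.smul (Low.prod (y := y) S') (hΓ k))
  have h3 : ∑ k, ∑ l, (wt y k * p k * (wt y l * q l)) • (Λ k l - Γ k l) = 0 := by
    simp only [smul_sub, sum_sub_distrib]
    have e1 : ∑ k, ∑ l, (wt y k * p k * (wt y l * q l)) • Λ k l = 0 := by
      rw [sum_comm]
      refine sum_eq_zero fun l _ => ?_
      have := congrArg (fun u => (wt y l * q l) • u) (h1 l)
      simp only [Finset.smul_sum, smul_smul, smul_zero] at this
      rw [← this]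
      exact sum_congr rfl fun k _ => by rw [mul_comm]
    have e2 : ∑ k, ∑ l, (wt y k * p k * (wt y l * q l)) • Γ k l = 0 := by
      refine sum_eq_zero fun k _ => ?_
      have := congrArg (fun u => (wt y k * p k) • u) (h2 k)
      simp only [Finset.smul_sum, smul_smul, smul_zero] at this
      exact this
    rw [e1, e2, sub_zero]
  rw [sum_eq_single k₀, sum_eq_single k₀] at h3
  · have hp0 : p k₀ ≠ 0 := prod_ne_zero_iff.2 fun s hs =>
      sub_ne_zero.2 fun e => (mem_erase.1 (hS hs)).1 (hy e).symm
    have hq0 : q k₀ ≠ 0 := prod_ne_zero_iff.2 fun s hs =>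
      sub_ne_zero.2 fun e => (mem_erase.1 (mem_sdiff.1 hs).1).1 (hy e).symm
    have hw := wt_ne_zero hy k₀
    rw [smul_eq_zero_iff_right (mul_ne_zero (mul_ne_zero hw hp0) (mul_ne_zero hw hq0))] at h3
    exact sub_eq_zero.1 h3
  · intro l _ hl
    rw [hoff _ _ hl.symm, sub_self, smul_zero]
  · intro hk; exact absurd (mem_univ _) hk
  · intro k _ hk
    refine sum_eq_zero fun l _ => ?_
    by_cases hkl : k = l
    · subst hkl
      by_cases hkS : k ∈ S
      · have : p k = 0 := prod_eq_zero hkS (sub_self _)
        rw [this]; simp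
      · have : q k = 0 :=
          prod_eq_zero (mem_sdiff.2 ⟨mem_erase.2 ⟨hk, mem_univ _⟩, hkS⟩) (sub_self _)
        rw [this]; simp
    · rw [hoff _ _ hkl, sub_self, smul_zero]
  · intro hk; exact absurd (mem_univ _) hk

/-- Functions of two nodes, of degree `< b` in the first and `< b'` in the second. -/
def Bi (M : Type) [AddCommGroup M] [Module K M] (y : ι → K) (b b' : ℕ) :
    Submodule K (ι → ι → M) where
  carrier := {F | (∀ l, (fun k => F k l) ∈ Low M y b) ∧ ∀ k, F k ∈ Low M y b'}
  add_mem' := fun hF hG =>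
    ⟨fun l => Submodule.add_mem _ (hF.1 l) (hG.1 l), fun k => Submodule.add_mem _ (hF.2 k) (hG.2 k)⟩
  zero_mem' := ⟨fun _ => Submodule.zero_mem _, fun _ => Submodule.zero_mem _⟩
  smul_mem' := fun a _ hF =>
    ⟨fun l => Submodule.smul_mem _ a (hF.1 l), fun k => Submodule.smul_mem _ a (hF.2 k)⟩

theorem descent (hy : Function.Injective y) {b b' : ℕ} (h : b + b' + 1 ≤ Fintype.card ι)
    (Z : ι → ι → Submodule K M)
    (hd : ∀ F ∈ Bi M y b b', (∀ k l, k ≠ l → F k l ∈ Z k l) → ∀ k, F k k = 0) :
    ∀ F ∈ Bi M y b b', (∀ k l, k ≠ l → F k l ∈ Z k l) → F = 0 := by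
  have key : ∀ c, c ≤ b → ∀ F ∈ Bi M y c b', (∀ k l, k ≠ l → F k l ∈ Z k l) → F = 0 := by
    intro c
    induction c with
    | zero =>
      intro _ F hF _
      funext k l
      exact congrFun (Low.eq_zero (hF.1 l)) k
    | succ c ih =>
      intro hc F hF hZ
      have hdiag := hd F ⟨fun l => Low.mono hc (hF.1 l), hF.2⟩ hZ
      choose g hg eg using fun l => Low.div (hF.1 l) l
      choose g' hg' eg' using fun k => Low.div (Low.mono (Nat.le_succ b') (hF.2 k)) k
      simp only [hdiag, sub_zero] at eg eg'
      have hoff : ∀ k l, k ≠ l → g l k = (-g' k) l := by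
        intro k l hkl
        have hne : y k - y l ≠ 0 := sub_ne_zero.2 fun e => hkl (hy e)
        apply smul_right_injective M hne
        dsimp only
        rw [← eg, eg', Pi.neg_apply, smul_neg, ← neg_smul, neg_sub]
      have hall : ∀ k l, g l k = (-g' k) l := by
        intro k l
        by_cases hkl : k = l
        · subst hkl
          exact ext_diag hy (b := c) (b' := b') (by omega) (Λ := fun k l => g l k)
            (Γ := fun k => -g' k) hg (fun k => Submodule.neg_mem _ (hg' k)) hoff k
        · exact hoff k l hkl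
      have h0 := ih (by omega) (fun k l => g l k)
        ⟨hg, fun k => by
          have : (fun l => g l k) = -g' k := funext (hall k)
          show (fun l => g l k) ∈ Low M y b'
          rw [this]
          exact Submodule.neg_mem _ (hg' k)⟩
        (fun k l hkl => by
          have hne : y k - y l ≠ 0 := sub_ne_zero.2 fun e => hkl (hy e)
          have := Submodule.smul_mem _ (y k - y l)⁻¹ (hZ k l hkl)
          rwa [eg, smul_smul, inv_mul_cancel₀ hne, one_smul] at this)
      funext k l
      have : g l k = 0 := congrFun (congrFun h0 k) l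
      rw [eg, this]
      simp
  exact key b le_rfl

theorem finrank_Bi [Module.Finite K M] (hy : Function.Injective y) {b b' : ℕ}
    (hb : b ≤ Fintype.card ι) (hb' : b' ≤ Fintype.card ι) :
    b * b' * Module.finrank K M ≤ Module.finrank K (Bi M y b b') := by
  obtain ⟨S, -, hS⟩ := exists_subset_card_eq (s := (univ : Finset ι)) (n := b) (by simpa using hb)
  obtain ⟨S', -, hS'⟩ :=
    exists_subset_card_eq (s := (univ : Finset ι)) (n := b') (by simpa using hb')
  set e : Finset ι → ι → ι → K := fun S s k => ∏ t ∈ S.erase s, (y k - y t) with he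
  have e1 : ∀ (S : Finset ι) (s : S), e S s ∈ Low K y S.card := fun S s => by
    have := Low.prod (y := y) (S.erase s)
    rwa [card_erase_add_one s.2] at this
  have e2 : ∀ (S : Finset ι) (s t : S), s ≠ t → e S s t = 0 := fun S s t hst =>
    prod_eq_zero (mem_erase.2 ⟨fun h => hst (Subtype.ext h).symm, t.2⟩) (sub_self _)
  have e3 : ∀ (S : Finset ι) (s : ι), e S s s ≠ 0 := fun S s =>
    prod_ne_zero_iff.2 fun t ht => sub_ne_zero.2 fun h => (mem_erase.1 ht).1 (hy h).symm
  let Φ : (S × S' → M) →ₗ[K] (ι → ι → M) :=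
    { toFun := fun c k l => ∑ s : S × S', e S s.1 k • e S' s.2 l • c s
      map_add' := fun c c' => by
        funext k l
        simp only [Pi.add_apply, smul_add, sum_add_distrib]
      map_smul' := fun a c => by
        funext k l
        simp only [Pi.smul_apply, RingHom.id_apply, Finset.smul_sum, smul_comm a] }
  have hΦ : ∀ c, Φ c ∈ Bi M y b b' := fun c => by
    refine ⟨fun l => ?_, fun k => ?_⟩
    · have : (fun k => Φ c k l) = ∑ s : S × S', fun k => e S s.1 k • e S' s.2 l • c s := by
        funext k; simp only [Finset.sum_apply]; rfl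
      rw [this]
      refine Submodule.sum_mem _ fun s _ => ?_
      have := Low.smul (e1 S s.1) (Low.const (y := y) (e S' s.2 l • c s))
      exact Low.mono (by omega) this
    · have : Φ c k = ∑ s : S × S', fun l => e S' s.2 l • e S s.1 k • c s := by
        funext l; simp only [Finset.sum_apply, smul_comm (e S' _ l)]; rfl
      rw [this]
      refine Submodule.sum_mem _ fun s _ => ?_
      have := Low.smul (e1 S' s.2) (Low.const (y := y) (e S s.1 k • c s))
      exact Low.mono (by omega) this
  have hinj : Function.Injective (Φ.codRestrict _ hΦ) := by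
    rw [← LinearMap.ker_eq_bot, LinearMap.ker_codRestrict, LinearMap.ker_eq_bot']
    intro c hc
    funext s
    have h : ∑ t : S × S', e S t.1 s.1 • e S' t.2 s.2 • c t = 0 := congrFun (congrFun hc s.1) s.2
    rw [sum_eq_single s] at h
    · rwa [smul_eq_zero_iff_right (e3 _ _), smul_eq_zero_iff_right (e3 _ _)] at h
    · intro t _ hts
      by_cases h1 : t.1 = s.1
      · rw [e2 S' t.2 s.2 (fun h2 => hts (Prod.ext h1 h2)), zero_smul, smul_zero]
      · rw [e2 S t.1 s.1 h1, zero_smul]
    · intro hs; exact absurd (mem_univ _) hs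
  have := LinearMap.finrank_le_finrank_of_injective hinj
  rw [Module.finrank_pi_fintype] at this
  simpa [hS, hS'] using this

end Vale.Agent.P040Z
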