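import Vale.Agent.P040Z.Comb

/-!
TASK Untangle.  A star with finitely many double points can be rerouted, inside its own image and
a given neighbourhood of the double points, so that its arcs are pairwise disjoint.

Plan.  `chord`: for four distinct points on a circle one of the two pairings has disjoint chords.
If `(1-x) A + x A' = (1-y) B + y B'` and `(1-x') A + x' B' = (1-y') B + y' A'` with parameters in `[0,1]`,
eliminating `A'` (multiply by `y'` and `x`) gives an affine dependency of `A, B, B'`, three distinct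
points of a circle, which are affinely independent (or argue with coordinates / strict convexity:
a point of the circle is not in the segment between two other points of the circle).
`step`: if not `Disj`, there are `i ≠ j`, `s, t > 0` with `γ i s = γ j t = z`; `z ∈ dbl` (`ne_k`, `ne_v`).
Choose `ρ > 0` with `B = closedBall z ρ ⊆ Ω` missing `k`, `range v`, `dbl \ {z}` and the (compact,
`range = γ l '' Icc 0 L`) arcs `γ l`, `l ≠ i, j` (they miss `z` by `Two`).  For `l = i, j` let `a l`, `b l` be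
the first and the last parameter with `γ l σ ∈ B` (`0 < a l < b l`, images on the sphere, the four
images distinct because the only double point in `B` is `z`); for other `l` put `a l = -2`,
`b l = -1`.  So `γ l σ ∉ B` whenever `σ < a l` or `b l < σ`.  Let `π` be `1` or `swap i j` according to
`chord`, and `γ' l = glue (γ (π l)) (γ l) (a (π l)) (b l)`, where
`glue f g a b σ = f (min σ a) + clamp (σ - a) • (g b - f a) + (g (max (σ - a - 1 + b) b) - g b)`:
`f σ` for `σ ≤ a`, the segment from `f a` to `g b` on `[a, a+1]`, `g (σ - a - 1 + b)` after.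
A non-chord parameter `(l, σ)` has the source `(π l, σ)` (if `σ < a (π l)`) or
`(l, σ - a (π l) - 1 + b l)` (if `σ > a (π l) + 1`), with the same image, outside `B`; the source map is
injective because `a l < b l`.  A chord parameter has image `k` (`l ≠ i, j`) or an image in `B`, and
the two chords are injective and disjoint.  (`stay` gives `γ l σ ≠ v l` for `σ < a l`, `l = i, j`, needed
for `ne_v` and `stay` of the new star.)  Hence `dbl' ⊆ dbl \ {z}` and `Two` persists.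
`untangle`: strong induction on `S.dbl.ncard`.
-/

namespace Vale.Agent.P040Z

open Set

/-- Twice the signed area of a triangle. -/
private def ori (X Y Z : ℂ) : ℝ := (Y.re - X.re) * (Z.im - X.im) - (Y.im - X.im) * (Z.re - X.re)

private theorem circ_eq {z X : ℂ} {ρ : ℝ} (h : ‖X - z‖ = ρ) :
    (X.re - z.re) ^ 2 + (X.im - z.im) ^ 2 = ρ ^ 2 := by
  rw [← h, Complex.sq_norm, Complex.normSq_apply, Complex.sub_re, Complex.sub_im]
  ring

private theorem sq_pos_of_ne {X Y : ℂ} (h : X ≠ Y) : 0 < (Y.re - X.re) ^ 2 + (Y.im - X.im) ^ 2 := by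
  rcases (add_nonneg (sq_nonneg (Y.re - X.re)) (sq_nonneg (Y.im - X.im))).eq_or_lt with h0 | h0
  · exfalso
    apply h
    have h1 : Y.re - X.re = 0 := by nlinarith [sq_nonneg (Y.re - X.re), sq_nonneg (Y.im - X.im)]
    have h2 : Y.im - X.im = 0 := by nlinarith [sq_nonneg (Y.re - X.re), sq_nonneg (Y.im - X.im)]
    exact Complex.ext (by linarith) (by linarith)
  · exact h0

private theorem ori_ne {z X Y Z : ℂ} {ρ : ℝ} (hX : ‖X - z‖ = ρ) (hY : ‖Y - z‖ = ρ)
    (hZ : ‖Z - z‖ = ρ) (h₁ : X ≠ Y) (h₂ : X ≠ Z) (h₃ : Y ≠ Z) : ori X Y Z ≠ 0 := by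
  intro hd
  unfold ori at hd
  have eX := circ_eq hX
  have eY := circ_eq hY
  have eZ := circ_eq hZ
  have p1 := sq_pos_of_ne h₁
  have p2 := sq_pos_of_ne h₂
  obtain ⟨U, hU⟩ : ∃ U, U = (Y.re - X.re) ^ 2 + (Y.im - X.im) ^ 2 := ⟨_, rfl⟩
  obtain ⟨W, hW⟩ : ∃ W, W = (Z.re - X.re) ^ 2 + (Z.im - X.im) ^ 2 := ⟨_, rfl⟩
  have e1 : U * (Z.re - X.re) = W * (Y.re - X.re) := by
    rw [hU, hW]
    linear_combination (Z.re - X.re) * (eY - eX) - (Y.re - X.re) * (eZ - eX)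
      + 2 * (X.im - z.im) * hd
  have e2 : U * (Z.im - X.im) = W * (Y.im - X.im) := by
    rw [hU, hW]
    linear_combination (Z.im - X.im) * (eY - eX) - (Y.im - X.im) * (eZ - eX)
      - 2 * (X.re - z.re) * hd
  rw [← hU] at p1
  rw [← hW] at p2
  have e3 : U * W * (U - W) = 0 := by
    have : U ^ 2 * W = W ^ 2 * U := by
      calc U ^ 2 * W = (U * (Z.re - X.re)) ^ 2 + (U * (Z.im - X.im)) ^ 2 := by
            conv_lhs => rw [hW]
            ring
        _ = (W * (Y.re - X.re)) ^ 2 + (W * (Y.im - X.im)) ^ 2 := by rw [e1, e2]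
        _ = W ^ 2 * U := by
            conv_rhs => rw [hU]
            ring
    linear_combination this
  have e4 : U = W := by
    rcases mul_eq_zero.1 e3 with h | h
    · exact absurd h (mul_pos p1 p2).ne'
    · linarith
  rw [← e4] at e1 e2
  have e5 := mul_left_cancel₀ p1.ne' e1
  have e6 := mul_left_cancel₀ p1.ne' e2
  exact h₃ (Complex.ext (by linarith) (by linarith))

private theorem ori_seg {A A' B B' : ℂ} (h : ¬ Disjoint (segment ℝ A A') (segment ℝ B B'))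
    (h1 : ori A B B' ≠ 0) (h2 : ori A' B B' ≠ 0) : ori A B B' * ori A' B B' < 0 := by
  obtain ⟨P, ⟨x, x', hx, hx', hxx, hP⟩, ⟨y, y', -, -, hyy, hP'⟩⟩ := Set.not_disjoint_iff.1 h
  have e := hP.trans hP'.symm
  have e1 := congrArg Complex.re e
  have e2 := congrArg Complex.im e
  simp only [Complex.add_re, Complex.add_im, Complex.smul_re, Complex.smul_im, smul_eq_mul] at e1 e2
  have e3 : x * ori A B B' + x' * ori A' B B' = 0 := by
    unfold ori
    obtain rfl : x' = 1 - x := by linarith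
    obtain rfl : y' = 1 - y := by linarith
    linear_combination (B.im - B'.im) * e1 - (B.re - B'.re) * e2
  rcases lt_trichotomy (ori A B B' * ori A' B B') 0 with h3 | h3 | h3
  · exact h3
  · exact absurd h3 (mul_ne_zero h1 h2)
  · exfalso
    have h4 : 0 < ori A B B' ^ 2 := by positivity
    have h5 : x * ori A B B' ^ 2 + x' * (ori A B B' * ori A' B B') = 0 := by
      linear_combination ori A B B' * e3
    rcases hx.eq_or_lt with h6 | h6
    · have h7 : x' = 1 := by linarith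
      rw [← h6, h7] at h5
      linarith
    · nlinarith [mul_pos h6 h4, mul_nonneg hx' h3.le]

theorem chord {z A A' B B' : ℂ} {ρ : ℝ} (hA : ‖A - z‖ = ρ) (hA' : ‖A' - z‖ = ρ)
    (hB : ‖B - z‖ = ρ) (hB' : ‖B' - z‖ = ρ) (h₁ : A ≠ A') (h₂ : A ≠ B) (h₃ : A ≠ B')
    (h₄ : A' ≠ B) (h₅ : A' ≠ B') (h₆ : B ≠ B') :
    Disjoint (segment ℝ A A') (segment ℝ B B') ∨ Disjoint (segment ℝ A B') (segment ℝ B A') := by
  by_contra hc
  rw [not_or] at hc
  obtain ⟨c1, c2⟩ := hc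
  have c3 : ¬ Disjoint (segment ℝ B B') (segment ℝ A A') := fun h => c1 h.symm
  have c4 : ¬ Disjoint (segment ℝ B A') (segment ℝ A B') := fun h => c2 h.symm
  have s1 := ori_seg c1 (ori_ne hA hB hB' h₂ h₃ h₆) (ori_ne hA' hB hB' h₄ h₅ h₆)
  have s2 := ori_seg c2 (ori_ne hA hB hA' h₂ h₁ h₄.symm) (ori_ne hB' hB hA' h₆.symm h₅.symm h₄.symm)
  have s3 := ori_seg c3 (ori_ne hB hA hA' h₂.symm h₄.symm h₁) (ori_ne hB' hA hA' h₃.symm h₅.symm h₁)
  have s4 := ori_seg c4 (ori_ne hB hA hB' h₂.symm h₆ h₃) (ori_ne hA' hA hB' h₁.symm h₅ h₃)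
  have r1 : ori A B A' = -ori B A A' := by unfold ori; ring
  have r2 : ori B' B A' = -ori A' B B' := by unfold ori; ring
  have r3 : ori B A B' = -ori A B B' := by unfold ori; ring
  have r4 : ori A' A B' = -ori B' A A' := by unfold ori; ring
  have r5 : ori B A A' - ori B' A A' + ori A B B' - ori A' B B' = 0 := by unfold ori; ring
  rw [r1, r2] at s2
  rw [r3, r4] at s4
  have r6 : ori A' B B' * (ori B A A' - ori B' A A' + ori A B B' - ori A' B B') = 0 := by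
    rw [r5, mul_zero]
  have s5 : 0 < ori A' B B' * ori B' A A' := by
    by_contra h
    have h' : ori A' B B' * ori B' A A' ≤ 0 := not_lt.1 h
    nlinarith [mul_pos (neg_pos.2 s1) (neg_pos.2 s4), sq_nonneg (ori A B B'),
      mul_nonneg (sq_nonneg (ori A B B')) (neg_nonneg.2 h')]
  nlinarith [sq_nonneg (ori A' B B')]

/-- Follow `f` until `a`, then a segment, then `g` from `b` on. -/
private noncomputable def glue (f g : ℝ → ℂ) (a b σ : ℝ) : ℂ :=
  if σ ≤ a then f σ else if σ ≤ a + 1 then f a + (σ - a) • (g b - f a) else g (σ - a - 1 + b)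

private theorem glue_le {f g : ℝ → ℂ} {a b σ : ℝ} (h : σ ≤ a) : glue f g a b σ = f σ := if_pos h

private theorem glue_mid {f g : ℝ → ℂ} {a b σ : ℝ} (h : a ≤ σ) (h' : σ ≤ a + 1) :
    glue f g a b σ = f a + (σ - a) • (g b - f a) := by
  unfold glue
  split_ifs with h1
  · rw [le_antisymm h1 h]; simp
  · rfl

private theorem glue_gt {f g : ℝ → ℂ} {a b σ : ℝ} (h : a + 1 < σ) :
    glue f g a b σ = g (σ - a - 1 + b) := by
  unfold glue
  rw [if_neg (by linarith), if_neg (by linarith)]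

private theorem glue_cont {f g : ℝ → ℂ} (hf : Continuous f) (hg : Continuous g) (a b : ℝ) :
    Continuous (glue f g a b) := by
  unfold glue
  refine Continuous.if_le hf ?_ continuous_id continuous_const ?_
  · refine Continuous.if_le (by fun_prop) (by fun_prop) continuous_id continuous_const ?_
    intro x hx
    rw [hx]
    simp
  · intro x hx
    rw [hx, if_pos (by linarith)]
    simp

private theorem Star.k_ne {ι : Type} {k : ℂ} {v : ι → ℂ} (S : Star ι k v) (l : ι) : v l ≠ k := by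
  obtain ⟨L, hL⟩ := S.fin l
  rw [← hL (max L 1) (le_max_left _ _)]
  exact S.ne_k l _ (lt_of_lt_of_le one_pos (le_max_right _ _))

private theorem Star.surgery {ι : Type} {k : ℂ} {v : ι → ℂ} (S : Star ι k v) (h2 : S.Two)
    {B : Set ℂ} (hB : Convex ℝ B) (hk : k ∉ B) (hv : ∀ l, v l ∉ B) (π : Equiv.Perm ι)
    (a b : ι → ℝ) (H1 : ∀ l, a l < b l) (H2 : ∀ l σ, σ < a l ∨ b l < σ → S.γ l σ ∉ B)
    (H3 : ∀ l, (π l = l ∧ b l = a l + 1 ∧ b l ≤ 0) ∨ (0 < a (π l) ∧ 0 < b l ∧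
      S.γ (π l) (a (π l)) ∈ B ∧ S.γ l (b l) ∈ B ∧ S.γ (π l) (a (π l)) ≠ S.γ l (b l)))
    (H4 : ∀ l l', l ≠ l' → 0 < b l → 0 < b l' →
      Disjoint (segment ℝ (S.γ (π l) (a (π l))) (S.γ l (b l)))
        (segment ℝ (S.γ (π l') (a (π l'))) (S.γ l' (b l')))) :
    ∃ S' : Star ι k v, S'.dbl ⊆ S.dbl \ B ∧ S'.Two ∧
      ∀ l σ, S'.γ l σ ∈ B ∨ ∃ j τ, S'.γ l σ = S.γ j τ := by
  classical
  obtain ⟨g, hg⟩ : ∃ g : ι → ℝ → ℂ, ∀ l, g l = glue (S.γ (π l)) (S.γ l) (a (π l)) (b l) :=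
    ⟨_, fun _ => rfl⟩
  have early : ∀ l σ, σ ≤ a (π l) → g l σ = S.γ (π l) σ := fun l σ h => by rw [hg, glue_le h]
  have late : ∀ l σ, a (π l) + 1 < σ → g l σ = S.γ l (σ - a (π l) - 1 + b l) :=
    fun l σ h => by rw [hg, glue_gt h]
  have mid : ∀ l σ, a (π l) ≤ σ → σ ≤ a (π l) + 1 → g l σ = S.γ (π l) (a (π l))
      + (σ - a (π l)) • (S.γ l (b l) - S.γ (π l) (a (π l))) :=
    fun l σ h h' => by rw [hg, glue_mid h h']
  have mseg : ∀ l σ, a (π l) ≤ σ → σ ≤ a (π l) + 1 →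
      g l σ ∈ segment ℝ (S.γ (π l) (a (π l))) (S.γ l (b l)) := by
    intro l σ h h'
    rw [segment_eq_image', mid l σ h h']
    exact ⟨σ - a (π l), ⟨by linarith, by linarith⟩, rfl⟩
  have mcase : ∀ l σ, a (π l) ≤ σ → σ ≤ a (π l) + 1 →
      (σ ≤ 0 ∧ g l σ = k) ∨ (0 < b l ∧ g l σ ∈ B ∧ S.γ (π l) (a (π l)) ≠ S.γ l (b l)) := by
    intro l σ h h'
    rcases H3 l with ⟨h1, h3, h4⟩ | ⟨-, h1, h3, h4, h5⟩
    · left
      rw [mid l σ h h']
      rw [h1] at h h' ⊢
      rw [S.start l (a l) (by linarith), S.start l (b l) h4]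
      exact ⟨by linarith, by simp⟩
    · exact Or.inr ⟨h1, hB.segment_subset h3 h4 (mseg l σ h h'), h5⟩
  have tri : ∀ l σ, σ < a (π l) ∨ (a (π l) ≤ σ ∧ σ ≤ a (π l) + 1) ∨ a (π l) + 1 < σ := by
    intro l σ
    rcases lt_or_ge σ (a (π l)) with h | h
    · exact Or.inl h
    · rcases le_or_gt σ (a (π l) + 1) with h' | h'
      · exact Or.inr (Or.inl ⟨h, h'⟩)
      · exact Or.inr (Or.inr h')
  have early_ne : ∀ l l' σ, σ < a (π l) → g l σ ≠ v l' := by
    intro l l' σ h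
    rw [early l σ h.le]
    by_cases hl : π l = l'
    · subst hl
      intro h1
      have h3 := S.stay _ σ (a (π l)) h.le h1
      rcases H3 l with ⟨h4, h5, h6⟩ | ⟨-, -, h4, -⟩
      · rw [h4] at h3
        rw [S.start l (a l) (by linarith)] at h3
        exact S.k_ne l h3.symm
      · exact hv _ (h3 ▸ h4)
    · exact S.ne_v _ _ _ hl
  have mid_ne : ∀ l l' σ, a (π l) ≤ σ → σ ≤ a (π l) + 1 → g l σ ≠ v l' := by
    intro l l' σ h h' h1
    rcases mcase l σ h h' with ⟨-, h3⟩ | ⟨-, h3, -⟩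
    · exact S.k_ne l' (h1.symm.trans h3)
    · exact hv l' (h1 ▸ h3)
  obtain ⟨src, hsrc⟩ : ∃ src : ι × ℝ → ι × ℝ, ∀ p, src p =
      if p.2 < a (π p.1) then (π p.1, p.2) else (p.1, p.2 - a (π p.1) - 1 + b p.1) :=
    ⟨_, fun _ => rfl⟩
  have F1 : ∀ p : ι × ℝ, p.2 < a (π p.1) ∨ a (π p.1) + 1 < p.2 →
      g p.1 p.2 = S.γ (src p).1 (src p).2 ∧ g p.1 p.2 ∉ B := by
    rintro ⟨l, σ⟩ (h | h)
    · rw [hsrc, if_pos h, early l σ h.le]
      exact ⟨rfl, H2 _ _ (Or.inl h)⟩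
    · dsimp only at h
      rw [hsrc, if_neg (by dsimp only; linarith), late l σ h]
      exact ⟨rfl, H2 _ _ (Or.inr (by linarith))⟩
  have F2 : ∀ p p' : ι × ℝ, p.2 < a (π p.1) ∨ a (π p.1) + 1 < p.2 →
      p'.2 < a (π p'.1) ∨ a (π p'.1) + 1 < p'.2 → src p = src p' → p = p' := by
    rintro ⟨l, σ⟩ ⟨l', σ'⟩ h h' e
    dsimp only at h h'
    rw [hsrc, hsrc] at e
    dsimp only at e
    rcases h with h | h <;> rcases h' with h' | h'
    · rw [if_pos h, if_pos h', Prod.mk.injEq] at e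
      rw [π.injective e.1, e.2]
    · rw [if_pos h, if_neg (by linarith), Prod.mk.injEq] at e
      have := H1 l'
      rw [e.1] at h
      linarith [e.2]
    · rw [if_neg (by linarith), if_pos h', Prod.mk.injEq] at e
      have := H1 l
      rw [← e.1] at h'
      linarith [e.2]
    · rw [if_neg (by linarith), if_neg (by linarith), Prod.mk.injEq] at e
      obtain ⟨rfl, e⟩ := e
      rw [show σ = σ' by linarith]
  have F5 : ∀ p : ι × ℝ, g p.1 p.2 ≠ k → g p.1 p.2 ∉ B →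
      p.2 < a (π p.1) ∨ a (π p.1) + 1 < p.2 := by
    intro p h1 h3
    rcases tri p.1 p.2 with h | ⟨h, h'⟩ | h
    · exact Or.inl h
    · rcases mcase _ _ h h' with h4 | h4
      · exact absurd h4.2 h1
      · exact absurd h4.2.1 h3
    · exact Or.inr h
  have F3 : ∀ p : ι × ℝ, g p.1 p.2 ∈ B → a (π p.1) ≤ p.2 ∧ p.2 ≤ a (π p.1) + 1 := by
    intro p h1
    rcases tri p.1 p.2 with h | h | h
    · exact absurd h1 (F1 p (Or.inl h)).2
    · exact h
    · exact absurd h1 (F1 p (Or.inr h)).2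
  have F4 : ∀ p p' : ι × ℝ, g p.1 p.2 ∈ B → g p.1 p.2 = g p'.1 p'.2 → p = p' := by
    rintro ⟨l, σ⟩ ⟨l', σ'⟩ h1 e
    have h3 := F3 _ h1
    have h4 := F3 (l', σ') (e ▸ h1)
    dsimp only at h1 e h3 h4
    rcases mcase l σ h3.1 h3.2 with h5 | h5
    · exact absurd (h5.2 ▸ h1) hk
    rcases mcase l' σ' h4.1 h4.2 with h6 | h6
    · exact absurd ((e.trans h6.2) ▸ h1) hk
    by_cases hl : l = l'
    · subst hl
      rw [mid l σ h3.1 h3.2, mid l σ' h4.1 h4.2, add_right_inj] at e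
      have h7 := smul_left_injective ℝ (sub_ne_zero.2 h5.2.2.symm) e
      rw [show σ = σ' by linarith]
    · exact absurd (e ▸ mseg l' σ' h4.1 h4.2)
        (Set.disjoint_left.1 (H4 l l' hl h5.1 h6.1) (mseg l σ h3.1 h3.2))
  refine ⟨⟨g, fun l => by rw [hg]; exact glue_cont (S.cont _) (S.cont _) _ _, ?_, ?_, ?_, ?_, ?_⟩,
    ?_, ?_, ?_⟩
  · intro l σ h0
    rcases tri l σ with h | ⟨h, h'⟩ | h
    · rw [early l σ h.le, S.start _ σ h0]
    · rcases H3 l with ⟨-, -, h4⟩ | ⟨h4, -⟩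
      · rcases mcase l σ h h' with h5 | h5
        · exact h5.2
        · linarith [h5.1]
      · linarith
    · rcases H3 l with ⟨h3, h4, -⟩ | ⟨h4, -⟩
      · rw [late l σ h, h3, S.start l _ (by linarith)]
      · linarith
  · intro l
    obtain ⟨L, hL⟩ := S.fin l
    refine ⟨max (a (π l) + 2) (L + a (π l) + 1 - b l), fun σ h => ?_⟩
    have h1 := (le_max_left _ _).trans h
    have h3 := (le_max_right _ _).trans h
    rw [late l σ (by linarith), hL _ (by linarith)]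
  · intro l σ τ hle e
    rcases tri l σ with h | ⟨h, h'⟩ | h
    · exact absurd e (early_ne l l σ h)
    · exact absurd e (mid_ne l l σ h h')
    · rw [late l σ h] at e
      rw [late l τ (by linarith)]
      exact S.stay l _ _ (by linarith) e
  · intro l σ h0
    rcases tri l σ with h | ⟨h, h'⟩ | h
    · rw [early l σ h.le]
      exact S.ne_k _ σ h0
    · rcases mcase l σ h h' with h5 | h5
      · linarith [h5.1]
      · exact fun e => hk (e ▸ h5.2.1)
    · rw [late l σ h]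
      refine S.ne_k l _ ?_
      rcases H3 l with ⟨h3, h4, -⟩ | ⟨-, h4, -⟩
      · rw [h3]; linarith
      · linarith
  · intro l l' σ hl
    rcases tri l σ with h | ⟨h, h'⟩ | h
    · exact early_ne l l' σ h
    · exact mid_ne l l' σ h h'
    · rw [late l σ h]
      exact S.ne_v l l' _ hl
  · rintro w ⟨h1, h3, p, p', hp, e, e'⟩
    dsimp only at e e'
    have h4 : w ∉ B := fun h => hp (F4 p p' (e ▸ h) (e.trans e'.symm))
    have h5 := F5 p (e ▸ h1) (e ▸ h4)
    have h6 := F5 p' (e' ▸ h1) (e' ▸ h4)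
    exact ⟨⟨h1, h3, src p, src p', fun h => hp (F2 p p' h5 h6 h), (F1 p h5).1.symm.trans e,
      (F1 p' h6).1.symm.trans e'⟩, h4⟩
  · intro w h1 h3 p p' p'' e e' e''
    dsimp only at e e' e''
    by_cases h4 : w ∈ B
    · exact Or.inl (F4 p p' (e ▸ h4) (e.trans e'.symm))
    · have h5 := F5 p (e ▸ h1) (e ▸ h4)
      have h6 := F5 p' (e' ▸ h1) (e' ▸ h4)
      have h7 := F5 p'' (e'' ▸ h1) (e'' ▸ h4)
      rcases h2 w h1 h3 (src p) (src p') (src p'') ((F1 p h5).1.symm.trans e)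
        ((F1 p' h6).1.symm.trans e') ((F1 p'' h7).1.symm.trans e'') with h | h | h
      · exact Or.inl (F2 _ _ h5 h6 h)
      · exact Or.inr (Or.inl (F2 _ _ h5 h7 h))
      · exact Or.inr (Or.inr (F2 _ _ h6 h7 h))
  · intro l σ
    dsimp only
    by_cases h1 : g l σ ∈ B
    · exact Or.inl h1
    · by_cases h3 : g l σ = k
      · exact Or.inr ⟨l, 0, h3.trans (S.start l 0 le_rfl).symm⟩
      · exact Or.inr ⟨_, _, (F1 (l, σ) (F5 (l, σ) h3 h1)).1⟩

private theorem first_last {f : ℝ → ℂ} (hf : Continuous f) {z : ℂ} {ρ L s : ℝ} (hρ : 0 < ρ)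
    (h0 : ∀ σ, σ ≤ 0 → f σ ∉ Metric.closedBall z ρ) (hL : ∀ σ, L ≤ σ → f σ ∉ Metric.closedBall z ρ)
    (hs : f s = z) : ∃ a b : ℝ, 0 < a ∧ a < b ∧ ‖f a - z‖ = ρ ∧ ‖f b - z‖ = ρ ∧
      ∀ σ, σ < a ∨ b < σ → f σ ∉ Metric.closedBall z ρ := by
  have hc : IsCompact (f ⁻¹' Metric.closedBall z ρ) := by
    refine (isCompact_Icc (a := 0) (b := L)).of_isClosed_subset
      (Metric.isClosed_closedBall.preimage hf) fun σ hσ => ⟨?_, ?_⟩
    · exact le_of_not_ge fun h => h0 σ h hσ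
    · exact le_of_not_ge fun h => hL σ h hσ
  have hsm : s ∈ f ⁻¹' Metric.closedBall z ρ := by
    rw [Set.mem_preimage, hs]; exact Metric.mem_closedBall_self hρ.le
  obtain ⟨a, ha, ha'⟩ := hc.exists_isLeast ⟨s, hsm⟩
  obtain ⟨b, hb, hb'⟩ := hc.exists_isGreatest ⟨s, hsm⟩
  have hout : ∀ σ, σ < a ∨ b < σ → f σ ∉ Metric.closedBall z ρ := by
    rintro σ (h | h) hσ
    · exact absurd (ha' hσ) (not_le.2 h)
    · exact absurd (hb' hσ) (not_le.2 h)
  have hcl : IsClosed {σ | ρ ≤ ‖f σ - z‖} := isClosed_le continuous_const (by fun_prop)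
  have hge : ∀ σ, σ < a ∨ b < σ → ρ ≤ ‖f σ - z‖ := fun σ h => by
    have := hout σ h
    rw [mem_closedBall_iff_norm, not_le] at this
    exact this.le
  have e1 : ‖f a - z‖ = ρ := by
    refine le_antisymm (mem_closedBall_iff_norm.1 ha) ?_
    have h1 : Set.Iio a ⊆ {σ | ρ ≤ ‖f σ - z‖} := fun σ h => hge σ (Or.inl h)
    have h2 := hcl.closure_subset_iff.2 h1
    rw [closure_Iio] at h2
    exact h2 (Set.mem_Iic.2 le_rfl)
  have e2 : ‖f b - z‖ = ρ := by
    refine le_antisymm (mem_closedBall_iff_norm.1 hb) ?_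
    have h1 : Set.Ioi b ⊆ {σ | ρ ≤ ‖f σ - z‖} := fun σ h => hge σ (Or.inr h)
    have h2 := hcl.closure_subset_iff.2 h1
    rw [closure_Ioi] at h2
    exact h2 (Set.mem_Ici.2 le_rfl)
  refine ⟨a, b, lt_of_not_ge fun h => h0 a h ha, ?_, e1, e2, hout⟩
  have h1 : a ≠ s := by
    rintro rfl
    rw [hs, sub_self, norm_zero] at e1
    exact hρ.ne e1
  exact lt_of_lt_of_le (lt_of_le_of_ne (ha' hsm) h1) (hb' hsm)

private theorem Star.range_closed {ι : Type} {k : ℂ} {v : ι → ℂ} (S : Star ι k v) (l : ι) :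
    IsClosed (range (S.γ l)) := by
  obtain ⟨L, hL⟩ := S.fin l
  have e : range (S.γ l) = S.γ l '' Icc 0 (max L 0) := by
    refine Set.Subset.antisymm ?_ (Set.image_subset_range _ _)
    rintro _ ⟨σ, rfl⟩
    rcases le_total σ 0 with h | h
    · exact ⟨0, ⟨le_rfl, le_max_right _ _⟩, by rw [S.start l 0 le_rfl, S.start l σ h]⟩
    · rcases le_total σ (max L 0) with h' | h'
      · exact ⟨σ, ⟨h, h'⟩, rfl⟩
      · exact ⟨max L 0, ⟨le_max_right _ _, le_rfl⟩, by
          rw [hL _ (le_max_left _ _), hL σ ((le_max_left _ _).trans h')]⟩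
  rw [e]
  exact (isCompact_Icc.image (S.cont l)).isClosed

private theorem Star.step {ι : Type} [Finite ι] {k : ℂ} {v : ι → ℂ} (S : Star ι k v)
    (hf : S.dbl.Finite) (h2 : S.Two) {Ω : Set ℂ} (hΩ : IsOpen Ω) (hsub : S.dbl ⊆ Ω)
    (hn : ¬ S.Disj) : ∃ S' : Star ι k v, ∃ z ∈ S.dbl, S'.dbl ⊆ S.dbl \ {z} ∧ S'.Two ∧
      ∀ i σ, S'.γ i σ ∈ Ω ∨ ∃ j τ, S'.γ i σ = S.γ j τ := by
  classical
  obtain ⟨i, j, hij, s, t, hs, e⟩ : ∃ i j, i ≠ j ∧ ∃ s t : ℝ, 0 < s ∧ S.γ i s = S.γ j t := by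
    by_contra h
    exact hn fun i j hij s t hs e => h ⟨i, j, hij, s, t, hs, e⟩
  obtain ⟨z, hz⟩ : ∃ z, S.γ i s = z := ⟨_, rfl⟩
  have hz' : S.γ j t = z := e.symm.trans hz
  have hzk : z ≠ k := hz ▸ S.ne_k i s hs
  have hzv : z ∉ range v := by
    rintro ⟨l, hl⟩
    by_cases h : i = l
    · exact S.ne_v j l t (fun h' => hij (h.trans h'.symm)) (hz'.trans hl.symm)
    · exact S.ne_v i l s h (hz.trans hl.symm)
  have hzd : z ∈ S.dbl := ⟨hzk, hzv, (i, s), (j, t), fun h => hij (congrArg Prod.fst h), hz, hz'⟩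
  have hcl : IsClosed ({k} ∪ range v ∪ (S.dbl \ {z}) ∪
      (⋃ l : {l // l ≠ i ∧ l ≠ j}, range (S.γ l)) ∪ Ωᶜ) :=
    (((isClosed_singleton.union (Set.finite_range v).isClosed).union
      (hf.subset Set.sdiff_subset).isClosed).union
      (isClosed_iUnion_of_finite fun l : {l // l ≠ i ∧ l ≠ j} => S.range_closed l.1)).union hΩ.isClosed_compl
  have hzn : z ∈ ({k} ∪ range v ∪ (S.dbl \ {z}) ∪
      (⋃ l : {l // l ≠ i ∧ l ≠ j}, range (S.γ l)) ∪ Ωᶜ)ᶜ := by
    rintro ((((h | h) | h) | h) | h)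
    · exact hzk h
    · exact hzv h
    · exact h.2 rfl
    · obtain ⟨⟨l, hl⟩, σ, hσ⟩ := Set.mem_iUnion.1 h
      rcases h2 z hzk hzv (i, s) (j, t) (l, σ) hz hz' hσ with h' | h' | h'
      · exact hij (congrArg Prod.fst h')
      · exact hl.1 (congrArg Prod.fst h').symm
      · exact hl.2 (congrArg Prod.fst h').symm
    · exact h (hsub hzd)
  obtain ⟨ρ, hρ, hB⟩ := Metric.nhds_basis_closedBall.mem_iff.1 (hcl.isOpen_compl.mem_nhds hzn)
  have hk : k ∉ Metric.closedBall z ρ := fun h =>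
    hB h (Or.inl (Or.inl (Or.inl (Or.inl rfl))))
  have hv : ∀ l, v l ∉ Metric.closedBall z ρ := fun l h =>
    hB h (Or.inl (Or.inl (Or.inl (Or.inr ⟨l, rfl⟩))))
  have hd : ∀ w ∈ Metric.closedBall z ρ, w ∈ S.dbl → w = z := fun w h h' => by
    by_contra h''
    exact hB h (Or.inl (Or.inl (Or.inr ⟨h', h''⟩)))
  have ho : ∀ l, l ≠ i → l ≠ j → ∀ σ, S.γ l σ ∉ Metric.closedBall z ρ := fun l h1 h3 σ h =>
    hB h (Or.inl (Or.inr (Set.mem_iUnion.2 ⟨⟨l, h1, h3⟩, σ, rfl⟩)))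
  have hBΩ : Metric.closedBall z ρ ⊆ Ω := fun w h => by
    by_contra h'
    exact hB h (Or.inr h')
  have hfl : ∀ l s, S.γ l s = z → ∃ a b : ℝ, 0 < a ∧ a < b ∧ ‖S.γ l a - z‖ = ρ ∧
      ‖S.γ l b - z‖ = ρ ∧ ∀ σ, σ < a ∨ b < σ → S.γ l σ ∉ Metric.closedBall z ρ := by
    intro l s hs
    obtain ⟨L, hL⟩ := S.fin l
    exact first_last (L := L) (S.cont l) hρ (fun σ h => by rw [S.start l σ h]; exact hk)
      (fun σ h => by rw [hL σ h]; exact hv l) hs
  obtain ⟨ai, bi, i1, i2, i3, i4, i5⟩ := hfl i s hz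
  obtain ⟨aj, bj, j1, j2, j3, j4, j5⟩ := hfl j t hz'
  have hne : ∀ p p' : ι × ℝ, p ≠ p' → ‖S.γ p.1 p.2 - z‖ = ρ → S.γ p.1 p.2 ≠ S.γ p'.1 p'.2 := by
    intro p p' hp h1 h3
    have h4 : S.γ p.1 p.2 ∈ Metric.closedBall z ρ := mem_closedBall_iff_norm.2 h1.le
    have h5 := hd _ h4 ⟨fun h => hk (h ▸ h4), fun ⟨l, h⟩ => hv l (h ▸ h4), p, p', hp, rfl, h3.symm⟩
    rw [h5, sub_self, norm_zero] at h1
    exact hρ.ne h1
  have n1 := hne (i, ai) (i, bi) (fun h => i2.ne (congrArg Prod.snd h)) i3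
  have n2 := hne (i, ai) (j, aj) (fun h => hij (congrArg Prod.fst h)) i3
  have n3 := hne (i, ai) (j, bj) (fun h => hij (congrArg Prod.fst h)) i3
  have n4 := hne (i, bi) (j, aj) (fun h => hij (congrArg Prod.fst h)) i4
  have n5 := hne (i, bi) (j, bj) (fun h => hij (congrArg Prod.fst h)) i4
  have n6 := hne (j, aj) (j, bj) (fun h => j2.ne (congrArg Prod.snd h)) j3
  dsimp only at n1 n2 n3 n4 n5 n6
  obtain ⟨a, ai', aj', ao⟩ : ∃ a : ι → ℝ, a i = ai ∧ a j = aj ∧ ∀ l, l ≠ i → l ≠ j → a l = -2 :=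
    ⟨fun l => if l = i then ai else if l = j then aj else -2, by simp, by simp [hij.symm],
      fun l h h' => by simp [h, h']⟩
  obtain ⟨b, bi', bj', bo⟩ : ∃ b : ι → ℝ, b i = bi ∧ b j = bj ∧ ∀ l, l ≠ i → l ≠ j → b l = -1 :=
    ⟨fun l => if l = i then bi else if l = j then bj else -1, by simp, by simp [hij.symm],
      fun l h h' => by simp [h, h']⟩
  subst ai' aj' bi' bj'
  have cs : ∀ l, l = i ∨ l = j ∨ (l ≠ i ∧ l ≠ j) := fun l => by tauto
  have m1 := mem_closedBall_iff_norm.2 i3.le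
  have m2 := mem_closedBall_iff_norm.2 i4.le
  have m3 := mem_closedBall_iff_norm.2 j3.le
  have m4 := mem_closedBall_iff_norm.2 j4.le
  have key : ∀ π : Equiv.Perm ι, (∀ l, l ≠ i → l ≠ j → π l = l) →
      (0 < a (π i) ∧ S.γ (π i) (a (π i)) ∈ Metric.closedBall z ρ ∧
        S.γ (π i) (a (π i)) ≠ S.γ i (b i)) →
      (0 < a (π j) ∧ S.γ (π j) (a (π j)) ∈ Metric.closedBall z ρ ∧
        S.γ (π j) (a (π j)) ≠ S.γ j (b j)) →
      Disjoint (segment ℝ (S.γ (π i) (a (π i))) (S.γ i (b i)))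
        (segment ℝ (S.γ (π j) (a (π j))) (S.γ j (b j))) →
      ∃ S' : Star ι k v, ∃ z ∈ S.dbl, S'.dbl ⊆ S.dbl \ {z} ∧ S'.Two ∧
        ∀ i σ, S'.γ i σ ∈ Ω ∨ ∃ j τ, S'.γ i σ = S.γ j τ := by
    intro π p1 p2 p3 p4
    have hsur := S.surgery h2 (convex_closedBall z ρ) hk hv π a b ?_ ?_ ?_ ?_
    · obtain ⟨S', q1, q2, q3⟩ := hsur
      refine ⟨S', z, hzd, fun w hw => ⟨(q1 hw).1, fun h => (q1 hw).2 ?_⟩, q2,
        fun l σ => (q3 l σ).imp_left fun h => hBΩ h⟩
      rw [Set.mem_singleton_iff.1 h]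
      exact Metric.mem_closedBall_self hρ.le
    · intro l
      rcases cs l with rfl | rfl | h
      · exact i2
      · exact j2
      · rw [ao l h.1 h.2, bo l h.1 h.2]; norm_num
    · intro l σ hσ
      rcases cs l with rfl | rfl | h
      · exact i5 σ hσ
      · exact j5 σ hσ
      · exact ho l h.1 h.2 σ
    · intro l
      rcases cs l with rfl | rfl | h
      · exact Or.inr ⟨p2.1, i1.trans i2, p2.2.1, m2, p2.2.2⟩
      · exact Or.inr ⟨p3.1, j1.trans j2, p3.2.1, m4, p3.2.2⟩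
      · left
        rw [ao l h.1 h.2, bo l h.1 h.2]
        exact ⟨p1 l h.1 h.2, by norm_num, by norm_num⟩
    · intro l l' hl h h'
      rcases cs l with rfl | rfl | h3
      · rcases cs l' with rfl | rfl | h4
        · exact absurd rfl hl
        · exact p4
        · rw [bo l' h4.1 h4.2] at h'; norm_num at h'
      · rcases cs l' with rfl | rfl | h4
        · exact p4.symm
        · exact absurd rfl hl
        · rw [bo l' h4.1 h4.2] at h'; norm_num at h'
      · rw [bo l h3.1 h3.2] at h; norm_num at h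
  rcases chord i3 i4 j3 j4 n1 n2 n3 n4 n5 n6 with h | h
  · exact key 1 (fun _ _ _ => rfl) ⟨i1, m1, n1⟩ ⟨j1, m3, n6⟩ h
  · refine key (Equiv.swap i j) (fun l h1 h3 => Equiv.swap_apply_of_ne_of_ne h1 h3) ?_ ?_ ?_
    · rw [Equiv.swap_apply_left]; exact ⟨j1, m3, n4.symm⟩
    · rw [Equiv.swap_apply_right]; exact ⟨i1, m1, n3⟩
    · rw [Equiv.swap_apply_left, Equiv.swap_apply_right]; exact h.symm

theorem Star.untangle {ι : Type} [Finite ι] {k : ℂ} {v : ι → ℂ} (S : Star ι k v)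
    (hf : S.dbl.Finite) (h2 : S.Two) {Ω : Set ℂ} (hΩ : IsOpen Ω) (hsub : S.dbl ⊆ Ω) :
    ∃ S' : Star ι k v, S'.Disj ∧ ∀ i σ, S'.γ i σ ∈ Ω ∨ ∃ j τ, S'.γ i σ = S.γ j τ := by
  induction hn : S.dbl.ncard using Nat.strong_induction_on generalizing S with
  | _ n ih =>
    by_cases hd : S.Disj
    · exact ⟨S, hd, fun i σ => Or.inr ⟨i, σ, rfl⟩⟩
    · obtain ⟨S', z, hz, h1, h3, h4⟩ := S.step hf h2 hΩ hsub hd
      have h5 : S'.dbl ⊆ S.dbl := h1.trans Set.sdiff_subset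
      have h6 : S'.dbl.ncard < n := by
        rw [← hn]
        exact Set.ncard_lt_ncard ⟨h5, fun h => (h1 (h hz)).2 rfl⟩ hf
      obtain ⟨S'', h7, h8⟩ := ih _ h6 S' (hf.subset h5) h3 (h5.trans hsub) rfl
      refine ⟨S'', h7, fun i σ => ?_⟩
      rcases h8 i σ with h | ⟨j, τ, h⟩
      · exact Or.inl h
      · rw [h]
        exact h4 j τ

end Vale.Agent.P040Z
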