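import Vale.Agent.P040Z.Rot

/-!
TASK Wind.  The mod 2 winding data of a family of untangled stars.

Plan.  Choose a common `L > 0` with `(S k).γ i L = p i`.  Let `c k i z` be the log change of
`(S k).γ i · - z` on `[0, L]` for `z = p j` (`j ≠ i`) and `z = q l` (`l ≠ k`).  Put
`Lb i j = log (p i - p j)`, `Lr k l = log (q k - q l)`, `Lx i k = log (p i - q k)` (all arguments nonzero
when they are used: `p i ≠ p j` from `ne_v` at time `L`, `q k ≠ q l` from `hq` at time `0`,
`p i ≠ q k` from `ne_k`).  By `Lifts.exp_mul` and `exp_eq_exp_iff_exists_int` there are integers with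
* `c k i (p j) = 2 π i * A i j k + Lb i j - (Lx j k + π i)`,
* `c k i (q l) = 2 π i * B k l i + Lx i l - Lr k l`,
* `Lb i j - Lb j i = π i (2 σ i j - 1)`, `Lr k l - Lr l k = π i (2 σ' k l - 1)` (so `σ' k l + σ' l k = 1`),
* `e k i = Lx i k + 2 π i * β k i` (`η k`, `e k` from `Star.rot`).
(Use `choose` on statements of the form `∀ i j k, ∃ n : ℤ, i ≠ j → ...`.)  Take `s i j = 1 + σ i j`,
`s' = σ'`, all cast to `ZMod 2`.  `Star.rot` gives the integer identity
`A i j k - A j i k = 1 - σ i j + β k i - β k j - [η k j < η k i]`, which is `hX` mod 2.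
For disjoint arcs, `Lifts.rect` for `F s t = (S k).γ i s - (S l).γ j t` on `[0, L] ^ 2` (and
`Lifts.neg`) gives `c k i (q l) + c l j (p i) = c l j (q k) + c k i (p j)`, i.e. the integer identity
`B k l i + A j i l - B l k j - A i j k = σ' k l + σ i j - 1`, i.e. `I = 0` mod 2.
If `ι` is empty the relation `hs'` still has to hold: treat that case separately with any order on
`κ` (`Fin n`: `s' k l = if k < l then 1 else 0`).
-/

namespace Vale.Agent.P040Z

open Set

theorem wd_int {a b : ℤ} (h : (a : ℂ) * (2 * Real.pi * Complex.I) = b * (2 * Real.pi * Complex.I)) :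
    (a : ZMod 2) = b := by
  have h2 : (a : ℂ) = b := mul_right_cancel₀ Complex.two_pi_I_ne_zero h
  have h3 : a = b := by exact_mod_cast h2
  rw [h3]

/-- Two logarithms of the same quotient differ by an integer multiple of `2 π i`. -/
theorem wd_quot {c u w a b : ℂ} (ha : a ≠ 0) (hc : Complex.exp c * a = b)
    (hu : Complex.exp u = b) (hw : Complex.exp w = a) :
    ∃ n : ℤ, c = u - w + n * (2 * Real.pi * Complex.I) := by
  refine Complex.exp_eq_exp_iff_exists_int.1 ?_
  rw [Complex.exp_sub, hu, hw, ← hc, mul_div_cancel_right₀ _ ha]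

theorem wd_neg {a : ℂ} (ha : a ≠ 0) :
    Complex.exp (Complex.log a + Real.pi * Complex.I) = -a := by
  rw [Complex.exp_add, Complex.exp_log ha, Complex.exp_pi_mul_I, mul_neg_one]

theorem wd_swap {a b : ℂ} (h : a ≠ b) : ∃ n : ℤ, Complex.log (a - b) =
    Complex.log (b - a) - Real.pi * Complex.I + n * (2 * Real.pi * Complex.I) := by
  refine wd_quot (a := -1) (b := b - a) (by norm_num) ?_ (Complex.exp_log (sub_ne_zero.2 h.symm))
    Complex.exp_pi_mul_I
  rw [Complex.exp_log (sub_ne_zero.2 h)]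
  ring

theorem wd_z1 : ∀ a a' s b b' t : ZMod 2, a - a' + s - 1 = b - b' - t →
    a + a' + (1 + s) = b + b' + t := by decide

theorem wd_z2 : ∀ a a' s b b' s' : ZMod 2, b + a' - b' - a = s' + s - 1 →
    a + a' + (1 + s) + (b + b' + s') = 0 := by decide

theorem exists_comb {m n : ℕ} {p : Fin m → ℂ} {q : Fin n → ℂ}
    (S : ∀ k : Fin n, Star (Fin m) (q k) p) (hS : ∀ k, (S k).Disj)
    (hq : ∀ k l i σ, k ≠ l → (S k).γ i σ ≠ q l) :
    ∃ C : Comb (Fin m) (Fin n), ∀ i j k l, i ≠ j → k ≠ l →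
      (∀ s t, (S k).γ i s ≠ (S l).γ j t) → C.I i j k l = 0 := by
  classical
  rcases Nat.eq_zero_or_pos m with rfl | hm
  · refine ⟨⟨fun i => i.elim0, fun _ _ i => i.elim0, fun i => i.elim0,
      fun k l => if k < l then 1 else 0, fun _ i => i.elim0, fun _ i => i.elim0,
      fun _ i => i.elim0, fun k l hkl => ?_, fun _ i => i.elim0⟩, fun i => i.elim0⟩
    rcases lt_or_gt_of_ne hkl with h | h
    · simp [h, h.not_gt]
    · simp [h, h.not_gt]
  choose Lf hLf using fun w : Fin n × Fin m => (S w.1).fin w.2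
  obtain ⟨L0, hL0⟩ := (Set.finite_range Lf).bddAbove
  set L : ℝ := max L0 1 with hLdef
  have hL0' : 0 < L := lt_of_lt_of_le one_pos (le_max_right _ _)
  have hL : ∀ k i, (S k).γ i L = p i := fun k i =>
    hLf (k, i) L ((hL0 ⟨(k, i), rfl⟩).trans (le_max_left _ _))
  have h0 : ∀ k i, (S k).γ i 0 = q k := fun k i => (S k).start i 0 le_rfl
  have hqq : ∀ k l, k ≠ l → q k ≠ q l := fun k l h => h0 k ⟨0, hm⟩ ▸ hq k l ⟨0, hm⟩ 0 h
  have hpq : ∀ i k, p i - q k ≠ 0 := fun i k => sub_ne_zero.2 (hL k i ▸ (S k).ne_k i L hL0')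
  have hc : ∀ k i (z : ℂ), ∃ c : ℂ, (∀ σ, (S k).γ i σ ≠ z) →
      Lifts (fun σ => (S k).γ i σ - z) 0 L c := fun k i z => by
    by_cases h : ∀ σ, (S k).γ i σ ≠ z
    · obtain ⟨c, hc⟩ := Lifts.exists_of (g := fun σ => (S k).γ i σ - z) hL0'.le
        (((S k).cont i).sub continuous_const).continuousOn fun t _ => sub_ne_zero.2 (h t)
      exact ⟨c, fun _ => hc⟩
    · exact ⟨0, fun h' => absurd h' h⟩
  choose c hc using hc
  have hcp : ∀ k i j, i ≠ j → Lifts (fun σ => (S k).γ i σ - p j) 0 L (c k i (p j)) :=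
    fun k i j h => hc k i _ fun σ => (S k).ne_v i j σ h
  have hcq : ∀ k l i, k ≠ l → Lifts (fun σ => (S k).γ i σ - q l) 0 L (c k i (q l)) :=
    fun k l i h => hc k i _ fun σ => hq k l i σ h
  choose η e hη he hrot using fun k => (S k).rot (hS k) hL0' (hL k)
  have hA : ∀ i j k, ∃ a : ℤ, i ≠ j → c k i (p j) = Complex.log (p i - p j) -
      (Complex.log (p j - q k) + Real.pi * Complex.I) + a * (2 * Real.pi * Complex.I) :=
    fun i j k => by
      by_cases h : i = j
      · exact ⟨0, fun h' => absurd h h'⟩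
      have hpp : p i - p j ≠ 0 := sub_ne_zero.2 (hL k i ▸ (S k).ne_v i j L h)
      have h1 := (hcp k i j h).exp_mul hL0'.le
      simp only [h0, hL] at h1
      obtain ⟨a, ha⟩ := wd_quot (a := q k - p j) (by rw [← neg_sub]; exact neg_ne_zero.2 (hpq j k))
        h1 (Complex.exp_log hpp) (by rw [wd_neg (hpq j k), neg_sub])
      exact ⟨a, fun _ => ha⟩
  have hB : ∀ k l i, ∃ a : ℤ, k ≠ l → c k i (q l) = Complex.log (p i - q l) -
      Complex.log (q k - q l) + a * (2 * Real.pi * Complex.I) := fun k l i => by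
    by_cases h : k = l
    · exact ⟨0, fun h' => absurd h h'⟩
    have hne : q k - q l ≠ 0 := sub_ne_zero.2 (hqq k l h)
    have h1 := (hcq k l i h).exp_mul hL0'.le
    simp only [h0, hL] at h1
    obtain ⟨a, ha⟩ := wd_quot hne h1 (Complex.exp_log (hpq i l)) (Complex.exp_log hne)
    exact ⟨a, fun _ => ha⟩
  have hσ : ∀ {r : ℕ} (u : Fin r → ℂ) i j, ∃ a : ℤ, u i ≠ u j → Complex.log (u i - u j) =
      Complex.log (u j - u i) - Real.pi * Complex.I + a * (2 * Real.pi * Complex.I) :=
    fun u i j => by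
      by_cases h : u i = u j
      · exact ⟨0, fun h' => absurd h h'⟩
      obtain ⟨a, ha⟩ := wd_swap h
      exact ⟨a, fun _ => ha⟩
  have hβ : ∀ k i, ∃ a : ℤ, e k i = Complex.log (p i - q k) + a * (2 * Real.pi * Complex.I) :=
    fun k i => Complex.exp_eq_exp_iff_exists_int.1 (by rw [he, Complex.exp_log (hpq i k)])
  choose A hA using hA
  choose B hB using hB
  choose σ hσ1 using hσ p
  choose σ' hσ2 using hσ q
  choose β hβ using hβ
  have hpp : ∀ (k : Fin n) i j, i ≠ j → p i ≠ p j := fun k i j h => hL k i ▸ (S k).ne_v i j L h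
  refine ⟨⟨fun i j k => A i j k, fun k l i => B k l i, fun i j => 1 + σ i j, fun k l => σ' k l,
    η, fun k i => β k i, hη, fun k l hkl => ?_, fun k i j hij => ?_⟩, fun i j k l hij hkl hd => ?_⟩
  · have h1 := hσ2 k l (hqq k l hkl)
    have h2 := hσ2 l k (hqq l k hkl.symm)
    have h3 := wd_int (a := σ' k l + σ' l k) (b := 1) (by
      push_cast; linear_combination -h1 - h2)
    simpa using h3
  · have h1 := hrot k i j hij _ _ (hcp k i j hij) (hcp k j i hij.symm)
    rw [hA i j k hij, hA j i k hij.symm, hβ, hβ, hσ1 i j (hpp k i j hij)] at h1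
    refine wd_z1 _ _ _ _ _ _ ?_
    have h3 := wd_int (a := A i j k - A j i k + σ i j - 1)
      (b := β k i - β k j - if η k j < η k i then 1 else 0) (by
        split_ifs at h1 ⊢ <;> (push_cast; linear_combination h1))
    simpa using h3
  · have h1 := Lifts.rect (F := fun s t => (S k).γ i s - (S l).γ j t) hL0'.le hL0'.le
      (((((S k).cont i).comp continuous_fst).sub (((S l).cont j).comp continuous_snd)).continuousOn)
      (fun s _ t _ => sub_ne_zero.2 (hd s t))
      (c₁ := c k i (q l)) (c₂ := c l j (p i)) (c₃ := c l j (q k)) (c₄ := c k i (p j))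
      (by simpa only [h0] using hcq k l i hkl)
      (by simpa only [hL, neg_sub] using (hcp l j i hij.symm).neg)
      (by simpa only [h0, neg_sub] using (hcq l k j hkl.symm).neg)
      (by simpa only [hL] using hcp k i j hij)
    rw [hA i j k hij, hA j i l hij.symm, hB k l i hkl, hB l k j hkl.symm,
      hσ1 i j (hpp k i j hij), hσ2 k l (hqq k l hkl)] at h1
    refine wd_z2 _ _ _ _ _ _ ?_
    have h3 := wd_int (a := B k l i + A j i l - B l k j - A i j k) (b := σ' k l + σ i j - 1) (by
      push_cast; linear_combination h1)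
    simpa using h3

end Vale.Agent.P040Z
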