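import Vale.Agent.P040Z.Alg
import Vale.Agent.P040Z.Wind
import Vale.Agent.P040Z.Untangle

/-!
TASK Lower.  The lower bound for every drawing.

Plan.  `p i = pos (inl i)`, `q k = pos (inr k)`, `E i k` the edge `s(inl i, inr k)` (injective in `(i, k)`).
`stars`: for each `(i, k)` get `g i k : ℝ → ℂ`, the arc of `E i k` composed with `projIcc 0 1`
(and with `unitInterval.symm` when `ends` gives the other orientation), with `g σ = q k` for `σ ≤ 0`,
`g σ = p i` for `σ ≥ 1`, `g σ ∈ arcInterior` for `0 < σ < 1`, injective on `[0, 1]`.  This gives stars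
`S k` with `dbl ⊆ crossingPoints`, `Two` (from `simple` and `two`), and every point of a star is its
centre, a `p i`, or an interior point of an edge `E i k`.  The sets `(S k).dbl` are finite, and miss the
closed sets `im l = ⋃ i, range (g i l)` for `l ≠ k` (`two`, `avoid`), so they are pairwise disjoint.
With `Set.Finite.t2_separation` choose pairwise disjoint open `Ω k ⊇ (S k).dbl` missing all `im l`,
`l ≠ k`, and untangle every star (`Star.untangle`).  New arcs of star `k` lie in `Ω k ∪ im k`, so miss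
`q l`.  `exists_comb` gives `C`; for `w = ((i, j), (k, l)) ∈ C.T` the new arcs meet at some `z w`, which lies
in `im k ∩ im l`, is no vertex (`ne_v` of both new stars, `hq`), hence is an interior point of an edge
at `k` and of an edge at `l`: `z w ∈ crossingPoints`.  The map `w ↦ (z w, decide (k < l))` into
`crossingPoints × Bool` is injective: by `two` the point determines `{k, l}`, the Boolean then
`(k, l)`, and `Disj` gives `i`, `j`.  So `2 * (d m * d n) ≤ C.T.card ≤ 2 * crossings`.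
-/

namespace Vale.Agent.P040Z

open Set

theorem exists_param (γ : C(unitInterval, ℂ)) (hγ : Function.Injective γ) {a b : ℂ}
    (h : (γ 0 = a ∧ γ 1 = b) ∨ (γ 0 = b ∧ γ 1 = a)) :
    ∃ g : ℝ → ℂ, Continuous g ∧ (∀ σ, σ ≤ 0 → g σ = a) ∧ (∀ σ, 1 ≤ σ → g σ = b) ∧
      (∀ σ, 0 < σ → σ < 1 → g σ ∈ arcInterior γ) ∧ InjOn g (Icc 0 1) := by
  rcases h with ⟨h0, h1⟩ | ⟨h0, h1⟩
  · refine ⟨fun σ => γ (projIcc 0 1 zero_le_one σ), γ.continuous.comp continuous_projIcc,
      ?_, ?_, ?_, ?_⟩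
    · intro σ hσ
      simp only [projIcc_of_le_left zero_le_one hσ]
      exact h0
    · intro σ hσ
      simp only [projIcc_of_right_le zero_le_one hσ]
      exact h1
    · intro σ h0 h1
      refine ⟨projIcc 0 1 zero_le_one σ, ?_, rfl⟩
      rw [projIcc_of_mem zero_le_one ⟨h0.le, h1.le⟩]
      exact ⟨h0, h1⟩
    · intro s hs t ht hst
      have := hγ hst
      rw [projIcc_of_mem zero_le_one hs, projIcc_of_mem zero_le_one ht] at this
      exact congrArg Subtype.val this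
  · refine ⟨fun σ => γ (projIcc 0 1 zero_le_one (1 - σ)),
      γ.continuous.comp (continuous_projIcc.comp (continuous_const.sub continuous_id)),
      ?_, ?_, ?_, ?_⟩
    · intro σ hσ
      have : (1 : ℝ) ≤ 1 - σ := by linarith
      simp only [projIcc_of_right_le zero_le_one this]
      exact h1
    · intro σ hσ
      have : 1 - σ ≤ (0 : ℝ) := by linarith
      simp only [projIcc_of_le_left zero_le_one this]
      exact h0
    · intro σ h0 h1
      refine ⟨projIcc 0 1 zero_le_one (1 - σ), ?_, rfl⟩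
      have a1 : (0 : ℝ) < 1 - σ := by linarith
      have a2 : 1 - σ < (1 : ℝ) := by linarith
      rw [projIcc_of_mem zero_le_one ⟨a1.le, a2.le⟩]
      exact ⟨a1, a2⟩
    · intro s hs t ht hst
      have := hγ hst
      have hs' : 1 - s ∈ Icc (0 : ℝ) 1 := ⟨by linarith [hs.2], by linarith [hs.1]⟩
      have ht' : 1 - t ∈ Icc (0 : ℝ) 1 := ⟨by linarith [ht.2], by linarith [ht.1]⟩
      rw [projIcc_of_mem zero_le_one hs', projIcc_of_mem zero_le_one ht'] at this
      have h3 : 1 - s = 1 - t := congrArg Subtype.val this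
      linarith

/-- The edge between the blue vertex `i` and the red vertex `k`. -/
def edge {m n : ℕ} (i : Fin m) (k : Fin n) :
    (completeBipartiteGraph (Fin m) (Fin n)).edgeSet :=
  ⟨s(Sum.inl i, Sum.inr k), by simp⟩

theorem edge_inj {m n : ℕ} {i j : Fin m} {k l : Fin n} (h : edge i k = edge j l) :
    i = j ∧ k = l := by
  have h1 : s(Sum.inl i, Sum.inr k) = (s(Sum.inl j, Sum.inr l) : Sym2 (Fin m ⊕ Fin n)) :=
    congrArg Subtype.val h
  simpa using h1

theorem exists_params {m n : ℕ} (D : Drawing (completeBipartiteGraph (Fin m) (Fin n))) :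
    ∃ g : Fin m → Fin n → ℝ → ℂ, ∀ i k, Continuous (g i k) ∧
      (∀ σ, σ ≤ 0 → g i k σ = D.pos (Sum.inr k)) ∧
      (∀ σ, 1 ≤ σ → g i k σ = D.pos (Sum.inl i)) ∧
      (∀ σ, 0 < σ → σ < 1 → g i k σ ∈ arcInterior (D.arc (edge i k))) ∧
      InjOn (g i k) (Icc 0 1) := by
  have key : ∀ (i : Fin m) (k : Fin n), ∃ g : ℝ → ℂ, Continuous g ∧
      (∀ σ, σ ≤ 0 → g σ = D.pos (Sum.inr k)) ∧ (∀ σ, 1 ≤ σ → g σ = D.pos (Sum.inl i)) ∧
      (∀ σ, 0 < σ → σ < 1 → g σ ∈ arcInterior (D.arc (edge i k))) ∧ InjOn g (Icc 0 1) := by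
    intro i k
    apply exists_param _ (D.simple _)
    obtain ⟨u, v, huv, h0, h1⟩ := D.ends (edge i k)
    have h2 : s(Sum.inl i, Sum.inr k) = s(u, v) := huv
    rcases Sym2.eq_iff.1 h2 with ⟨hu, hv⟩ | ⟨hv, hu⟩
    · right
      rw [hu, hv]
      exact ⟨h0, h1⟩
    · left
      rw [hu, hv]
      exact ⟨h0, h1⟩
  choose g hg using key
  exact ⟨g, hg⟩

/-- The stars of a drawing at the red vertices. -/
theorem exists_stars {m n : ℕ} (D : Drawing (completeBipartiteGraph (Fin m) (Fin n))) :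
    ∃ S : ∀ k : Fin n, Star (Fin m) (D.pos (Sum.inr k)) (fun i => D.pos (Sum.inl i)),
      (∀ k i, IsClosed (range ((S k).γ i))) ∧
      (∀ k i σ, (S k).γ i σ = D.pos (Sum.inr k) ∨ (S k).γ i σ = D.pos (Sum.inl i) ∨
        (S k).γ i σ ∈ arcInterior (D.arc (edge i k))) ∧
      (∀ k, (S k).Two) ∧
      ∀ k, ∀ z ∈ (S k).dbl, ∃ i j, i ≠ j ∧ z ∈ arcInterior (D.arc (edge i k)) ∧
        z ∈ arcInterior (D.arc (edge j k)) := by
  obtain ⟨g, hg⟩ := exists_params D
  have tri : ∀ i k σ, (σ ≤ 0 ∧ g i k σ = D.pos (Sum.inr k)) ∨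
      (1 ≤ σ ∧ g i k σ = D.pos (Sum.inl i)) ∨
      (σ ∈ Icc (0 : ℝ) 1 ∧ 0 < σ ∧ σ < 1 ∧ g i k σ ∈ arcInterior (D.arc (edge i k))) := by
    intro i k σ
    obtain ⟨-, h0, h1, h2, -⟩ := hg i k
    by_cases a : σ ≤ 0
    · exact Or.inl ⟨a, h0 σ a⟩
    by_cases b : 1 ≤ σ
    · exact Or.inr (Or.inl ⟨b, h1 σ b⟩)
    push Not at a b
    exact Or.inr (Or.inr ⟨⟨a.le, b.le⟩, a, b, h2 σ a b⟩)
  have hpq : ∀ (i : Fin m) (k : Fin n), D.pos (Sum.inl i) ≠ D.pos (Sum.inr k) := by
    intro i k h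
    exact absurd (D.pos_inj h) (by simp)
  have inner : ∀ i k σ z, g i k σ = z → z ≠ D.pos (Sum.inr k) →
      z ∉ range (fun i => D.pos (Sum.inl i)) →
      σ ∈ Icc (0 : ℝ) 1 ∧ z ∈ arcInterior (D.arc (edge i k)) := by
    intro i k σ z hz h1 h2
    rcases tri i k σ with ⟨-, h⟩ | ⟨-, h⟩ | ⟨h, -, -, h'⟩
    · exact absurd (hz ▸ h) h1
    · exact absurd ⟨i, (hz ▸ h).symm⟩ h2
    · exact ⟨h, hz ▸ h'⟩
  have same : ∀ (k : Fin n) (a b : Fin m × ℝ) (z : ℂ), g a.1 k a.2 = z → g b.1 k b.2 = z →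
      z ≠ D.pos (Sum.inr k) → z ∉ range (fun i => D.pos (Sum.inl i)) → a.1 = b.1 → a = b := by
    rintro k ⟨i, s⟩ ⟨j, t⟩ z ha hb h1 h2 hij
    simp only at hij ha hb
    subst hij
    have := (hg i k).2.2.2.2 (inner _ _ _ _ ha h1 h2).1 (inner _ _ _ _ hb h1 h2).1
      (ha.trans hb.symm)
    rw [this]
  refine ⟨fun k =>
    { γ := fun i => g i k
      cont := fun i => (hg i k).1
      start := fun i σ h => (hg i k).2.1 σ h
      fin := fun i => ⟨1, fun σ h => (hg i k).2.2.1 σ h⟩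
      stay := ?_
      ne_k := ?_
      ne_v := ?_ }, ?_, ?_, ?_, ?_⟩
  · intro i σ τ hst h
    rcases tri i k σ with ⟨-, h'⟩ | ⟨h', -⟩ | ⟨-, -, -, h'⟩
    · exact absurd (h.symm.trans h') (hpq i k)
    · exact (hg i k).2.2.1 τ (h'.trans hst)
    · exact absurd (h ▸ h') (D.avoid _ _)
  · intro i σ hσ h
    rcases tri i k σ with ⟨h', -⟩ | ⟨-, h'⟩ | ⟨-, -, -, h'⟩
    · linarith
    · exact hpq i k (h'.symm.trans h)
    · exact absurd (h ▸ h') (D.avoid _ _)
  · intro i j σ hij h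
    rcases tri i k σ with ⟨-, h'⟩ | ⟨-, h'⟩ | ⟨-, -, -, h'⟩
    · exact hpq j k (h.symm.trans h')
    · exact hij (by simpa using D.pos_inj (h'.symm.trans h))
    · exact absurd (h ▸ h') (D.avoid _ _)
  · intro k i
    have : range (g i k) = g i k '' Icc 0 1 := by
      apply Subset.antisymm
      · rintro _ ⟨σ, rfl⟩
        rcases tri i k σ with ⟨-, h'⟩ | ⟨-, h'⟩ | ⟨h', -⟩
        · exact ⟨0, ⟨le_rfl, zero_le_one⟩, ((hg i k).2.1 0 le_rfl).trans h'.symm⟩
        · exact ⟨1, ⟨zero_le_one, le_rfl⟩, ((hg i k).2.2.1 1 le_rfl).trans h'.symm⟩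
        · exact ⟨σ, h', rfl⟩
      · exact image_subset_range _ _
    show IsClosed (range (g i k))
    rw [this]
    exact (isCompact_Icc.image (hg i k).1).isClosed
  · intro k i σ
    rcases tri i k σ with ⟨-, h'⟩ | ⟨-, h'⟩ | ⟨-, -, -, h'⟩
    · exact Or.inl h'
    · exact Or.inr (Or.inl h')
    · exact Or.inr (Or.inr h')
  · intro k z h1 h2 a b c ha hb hc
    by_cases hab : a.1 = b.1
    · exact Or.inl (same k a b z ha hb h1 h2 hab)
    by_cases hac : a.1 = c.1
    · exact Or.inr (Or.inl (same k a c z ha hc h1 h2 hac))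
    by_cases hbc : b.1 = c.1
    · exact Or.inr (Or.inr (same k b c z hb hc h1 h2 hbc))
    exfalso
    have := D.two (edge a.1 k) (edge b.1 k) (edge c.1 k) (fun h => hab (edge_inj h).1)
      (fun h => hac (edge_inj h).1) (fun h => hbc (edge_inj h).1)
    have hz : z ∈ arcInterior (D.arc (edge a.1 k)) ∩ arcInterior (D.arc (edge b.1 k)) ∩
        arcInterior (D.arc (edge c.1 k)) :=
      ⟨⟨(inner _ _ _ _ ha h1 h2).2, (inner _ _ _ _ hb h1 h2).2⟩, (inner _ _ _ _ hc h1 h2).2⟩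
    rw [this] at hz
    exact hz
  · rintro k z ⟨h1, h2, a, b, hab, ha, hb⟩
    exact ⟨a.1, b.1, fun h => hab (same k a b z ha hb h1 h2 h), (inner _ _ _ _ ha h1 h2).2,
      (inner _ _ _ _ hb h1 h2).2⟩

/-- Untangled stars whose mutual intersections are crossing points of the drawing. -/
theorem exists_untangled {m n : ℕ} (D : Drawing (completeBipartiteGraph (Fin m) (Fin n))) :
    ∃ S : ∀ k : Fin n, Star (Fin m) (D.pos (Sum.inr k)) (fun i => D.pos (Sum.inl i)),
      (∀ k, (S k).Disj) ∧ (∀ k l i σ, k ≠ l → (S k).γ i σ ≠ D.pos (Sum.inr l)) ∧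
      ∀ k l i j s t, i ≠ j → k ≠ l → (S k).γ i s = (S l).γ j t →
        (∃ a, (S k).γ i s ∈ arcInterior (D.arc (edge a k))) ∧
          ∃ b, (S k).γ i s ∈ arcInterior (D.arc (edge b l)) := by
  obtain ⟨S, hcl, htri, htwo, hdbl⟩ := exists_stars D
  have hsub : ∀ k, (S k).dbl ⊆ crossingPoints D.arc := by
    intro k z hz
    obtain ⟨i, j, hij, hi, hj⟩ := hdbl k z hz
    exact ⟨edge i k, edge j k, fun h => hij (edge_inj h).1, hi, hj⟩
  set im : Fin n → Set ℂ := fun l => ⋃ i, range ((S l).γ i) with him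
  have him_cl : ∀ l, IsClosed (im l) := fun l => isClosed_iUnion_of_finite fun i => hcl l i
  have hmem : ∀ l z, z ∈ im l ↔ ∃ i σ, (S l).γ i σ = z := by
    intro l z
    simp [him]
  have hmiss : ∀ k l, k ≠ l → ∀ z ∈ (S k).dbl, z ∉ im l := by
    intro k l hkl z hz hzl
    obtain ⟨i, j, hij, hi, hj⟩ := hdbl k z hz
    obtain ⟨a, σ, ha⟩ := (hmem l z).1 hzl
    rcases htri l a σ with h | h | h
    · exact D.avoid _ _ ((ha.symm.trans h) ▸ hi)
    · exact D.avoid _ _ ((ha.symm.trans h) ▸ hi)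
    · have := D.two (edge i k) (edge j k) (edge a l) (fun h => hij (edge_inj h).1)
        (fun h => hkl (edge_inj h).2) (fun h => hkl (edge_inj h).2)
      have hz' : z ∈ arcInterior (D.arc (edge i k)) ∩ arcInterior (D.arc (edge j k)) ∩
          arcInterior (D.arc (edge a l)) := ⟨⟨hi, hj⟩, ha ▸ h⟩
      rw [this] at hz'
      exact hz'
  have hdim : ∀ l, (S l).dbl ⊆ im l := by
    rintro l z ⟨-, -, a, -, -, ha, -⟩
    exact (hmem l z).2 ⟨a.1, a.2, ha⟩
  obtain ⟨U, hU, hUd⟩ := D.finite.t2_separation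
  set Ω : Fin n → Set ℂ := fun k =>
    (⋃ z ∈ (S k).dbl, U z) ∩ (⋃ l ∈ {l | l ≠ k}, im l)ᶜ with hΩ
  have hΩo : ∀ k, IsOpen (Ω k) := by
    intro k
    refine (isOpen_biUnion fun z _ => (hU z).2).inter ?_
    exact ((toFinite _).isClosed_biUnion fun l _ => him_cl l).isOpen_compl
  have hΩs : ∀ k, (S k).dbl ⊆ Ω k := by
    intro k z hz
    refine ⟨mem_biUnion hz (hU z).1, ?_⟩
    intro h
    obtain ⟨l, hl, hzl⟩ := mem_iUnion₂.1 h
    exact hmiss k l (Ne.symm hl) z hz hzl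
  have hΩim : ∀ k l, k ≠ l → ∀ z ∈ Ω k, z ∉ im l := by
    intro k l hkl z hz hzl
    exact hz.2 (mem_biUnion (show l ∈ {l | l ≠ k} from hkl.symm) hzl)
  have hΩΩ : ∀ k l, k ≠ l → ∀ z ∈ Ω k, z ∉ Ω l := by
    intro k l hkl z hz hzl
    obtain ⟨x, hx, hzx⟩ := mem_iUnion₂.1 hz.1
    obtain ⟨y, hy, hzy⟩ := mem_iUnion₂.1 hzl.1
    have hxy : x ≠ y := by
      rintro rfl
      exact hmiss k l hkl x hx (hdim l hy)
    exact (Set.disjoint_left.1 (hUd (hsub k hx) (hsub l hy) hxy)) hzx hzy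
  have key : ∀ k, ∃ S' : Star (Fin m) (D.pos (Sum.inr k)) (fun i => D.pos (Sum.inl i)),
      S'.Disj ∧ ∀ i σ, S'.γ i σ ∈ Ω k ∨ ∃ j τ, S'.γ i σ = (S k).γ j τ := fun k =>
    (S k).untangle (D.finite.subset (hsub k)) (htwo k) (hΩo k) (hΩs k)
  choose S' hD hS' using key
  have hS'' : ∀ k i σ, (S' k).γ i σ ∈ Ω k ∨ (S' k).γ i σ ∈ im k := by
    intro k i σ
    rcases hS' k i σ with h | ⟨j, τ, h⟩
    · exact Or.inl h
    · exact Or.inr ((hmem k _).2 ⟨j, τ, h.symm⟩)
  have hq : ∀ k l i σ, k ≠ l → (S' k).γ i σ ≠ D.pos (Sum.inr l) := by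
    intro k l i σ hkl h
    rcases hS'' k i σ with h1 | h1
    · exact hΩim k l hkl _ h1 ((hmem l _).2 ⟨i, 0, ((S l).start i 0 le_rfl).trans h.symm⟩)
    · obtain ⟨a, τ, ha⟩ := (hmem k _).1 h1
      rw [h] at ha
      rcases htri k a τ with h2 | h2 | h2
      · exact hkl (by simpa using D.pos_inj (h2.symm.trans ha))
      · exact absurd (D.pos_inj (h2.symm.trans ha)) (by simp)
      · exact D.avoid _ _ (ha ▸ h2)
  refine ⟨S', hD, hq, ?_⟩
  intro k l i j s t hij hkl hz
  have hzk : (S' k).γ i s ∈ im k := by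
    rcases hS'' k i s with h1 | h1
    · rcases hS'' l j t with h2 | h2
      · exact absurd (hz ▸ h2) (hΩΩ k l hkl _ h1)
      · exact absurd (hz ▸ h2) (hΩim k l hkl _ h1)
    · exact h1
  have hzl : (S' k).γ i s ∈ im l := by
    rcases hS'' l j t with h2 | h2
    · exact absurd (hz ▸ hzk) (hΩim l k hkl.symm _ h2)
    · exact hz ▸ h2
  have hnp : ∀ a, (S' k).γ i s ≠ D.pos (Sum.inl a) := by
    intro a h
    by_cases hia : i = a
    · subst hia
      exact (S' l).ne_v j i t hij.symm (hz.symm.trans h)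
    · exact (S' k).ne_v i a s hia h
  constructor
  · obtain ⟨a, τ, ha⟩ := (hmem k _).1 hzk
    rcases htri k a τ with h2 | h2 | h2
    · exact absurd ((hz.symm.trans ha.symm).trans h2) (hq l k j t hkl.symm)
    · exact absurd (ha.symm.trans h2) (hnp a)
    · exact ⟨a, ha ▸ h2⟩
  · obtain ⟨a, τ, ha⟩ := (hmem l _).1 hzl
    rcases htri l a τ with h2 | h2 | h2
    · exact absurd (ha.symm.trans h2) (hq k l i s hkl)
    · exact absurd (ha.symm.trans h2) (hnp a)
    · exact ⟨a, ha ▸ h2⟩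

theorem lower {m n : ℕ} (D : Drawing (completeBipartiteGraph (Fin m) (Fin n))) :
    d m * d n ≤ D.crossings := by
  classical
  obtain ⟨S, hD, hq, hx⟩ := exists_untangled D
  obtain ⟨C, hC⟩ := exists_comb S hD hq
  have hT := C.card_T
  have key : ∀ w : (Fin m × Fin m) × (Fin n × Fin n), ∃ st : ℝ × ℝ, w ∈ C.T →
      (S w.2.1).γ w.1.1 st.1 = (S w.2.2).γ w.1.2 st.2 := by
    intro w
    by_cases hw : w ∈ C.T
    · obtain ⟨h1, h2, h3⟩ := (Finset.mem_filter.1 hw).2
      by_contra hcon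
      push Not at hcon
      exact h3 (hC _ _ _ _ h1 h2 fun s t => (hcon (s, t)).2)
    · exact ⟨(0, 0), fun h => absurd h hw⟩
  choose st hst using key
  set z : (Fin m × Fin m) × (Fin n × Fin n) → ℂ := fun w => (S w.2.1).γ w.1.1 (st w).1 with hz
  have hzx : ∀ w ∈ C.T, (∃ a, z w ∈ arcInterior (D.arc (edge a w.2.1))) ∧
      ∃ b, z w ∈ arcInterior (D.arc (edge b w.2.2)) := by
    intro w hw
    obtain ⟨h1, h2, -⟩ := (Finset.mem_filter.1 hw).2
    exact hx _ _ _ _ _ _ h1 h2 (hst w hw)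
  have hcard : C.T.card ≤ (D.finite.toFinset ×ˢ (Finset.univ : Finset Bool)).card := by
    apply Finset.card_le_card_of_injOn (fun w => (z w, decide (w.2.1 < w.2.2)))
    · intro w hw
      have hw' : w ∈ C.T := hw
      obtain ⟨-, h2, -⟩ := (Finset.mem_filter.1 hw').2
      obtain ⟨⟨a, ha⟩, b, hb⟩ := hzx w hw'
      simp only [Finset.coe_product, Finset.coe_univ, mem_prod, mem_univ, and_true,
        Finite.coe_toFinset]
      exact ⟨edge a w.2.1, edge b w.2.2, fun h => h2 (edge_inj h).2, ha, hb⟩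
    · intro w hw w' hw' hww
      have hw1 : w ∈ C.T := hw
      have hw2 : w' ∈ C.T := hw'
      obtain ⟨-, h2, -⟩ := (Finset.mem_filter.1 hw1).2
      obtain ⟨-, h2', -⟩ := (Finset.mem_filter.1 hw2).2
      obtain ⟨⟨a, ha⟩, b, hb⟩ := hzx w hw1
      obtain ⟨⟨a', ha'⟩, b', hb'⟩ := hzx w' hw2
      have e1 : z w = z w' := congrArg Prod.fst hww
      have e2 : decide (w.2.1 < w.2.2) = decide (w'.2.1 < w'.2.2) := congrArg Prod.snd hww
      have e3 : w.2.1 < w.2.2 ↔ w'.2.1 < w'.2.2 := decide_eq_decide.1 e2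
      have three : ∀ c r, z w ∈ arcInterior (D.arc (edge c r)) → r = w.2.1 ∨ r = w.2.2 := by
        intro c r hc
        by_contra hcon
        push Not at hcon
        have := D.two (edge a w.2.1) (edge b w.2.2) (edge c r) (fun h => h2 (edge_inj h).2)
          (fun h => hcon.1 (edge_inj h).2.symm) (fun h => hcon.2 (edge_inj h).2.symm)
        have hz' : z w ∈ arcInterior (D.arc (edge a w.2.1)) ∩
            arcInterior (D.arc (edge b w.2.2)) ∩ arcInterior (D.arc (edge c r)) :=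
          ⟨⟨ha, hb⟩, hc⟩
        rw [this] at hz'
        exact hz'
      have t1 := three a' _ (e1 ▸ ha')
      have t2 := three b' _ (e1 ▸ hb')
      have hkl : w'.2.1 = w.2.1 ∧ w'.2.2 = w.2.2 := by
        rcases t1 with t1 | t1 <;> rcases t2 with t2 | t2
        · exact absurd (t1.trans t2.symm) h2'
        · exact ⟨t1, t2⟩
        · rw [t1, t2] at e3
          exfalso
          rcases lt_or_gt_of_ne h2 with h | h
          · exact lt_asymm h (e3.1 h)
          · exact lt_asymm h (e3.2 h)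
        · exact absurd (t1.trans t2.symm) h2'
      have s1 := hst w hw1
      have s2 := hst w' hw2
      obtain ⟨⟨i, j⟩, k, l⟩ := w
      obtain ⟨⟨i', j'⟩, k', l'⟩ := w'
      simp only at hkl
      obtain ⟨rfl, rfl⟩ := hkl
      simp only [hz] at e1 ha s1 s2
      have pos : ∀ (r : Fin n) (c : Fin m) (σ : ℝ),
          (S r).γ c σ ∈ arcInterior (D.arc (edge a k')) → 0 < σ := by
        intro r c σ h
        by_contra hσ
        push Not at hσ
        exact D.avoid _ _ (((S r).start c σ hσ) ▸ h)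
      have hi : i = i' := by
        by_contra hne
        exact hD k' i i' hne _ _ (pos _ _ _ ha) e1
      have hj : j = j' := by
        by_contra hne
        exact hD l' j j' hne _ _ (pos _ _ _ (s1 ▸ ha)) ((s1.symm.trans e1).trans s2)
      rw [hi, hj]
  rw [Finset.card_product, Finset.card_univ, Fintype.card_bool] at hcard
  have : D.crossings = D.finite.toFinset.card := Set.ncard_eq_toFinset_card _ D.finite
  omega

end Vale.Agent.P040Z
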