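import Vale.Agent.P040Z.Lift

/-!
TASK Rot.  The rotation at the centre of an untangled star is a linear order.

Plan.  Pick `r > 0` with `r < ‖v i - k‖` for all `i` (finite, `v i ≠ k` by `fin`, `ne_k`, `hL`).  Let
`t i` be the first time with `‖γ i t - k‖ = r` (`0 < t i ≤ L`, `‖γ i σ - k‖ ≤ r` on `[0, t i]`;
`sInf` of the closed set `{σ ∈ [0, L] | r ≤ ‖γ i σ - k‖}`), `u i = γ i (t i) - k`, `η i = arg (u i)`
(injective: `‖u i‖ = r` and `u i ≠ u j` by `Disj`), `lam i` the log change of `γ i - k` on `[t i, L]`,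
`e i = log (u i) + lam i`, so `exp (e i) = v i - k`.  For `i ≠ j` let `μ` be the log change of
`γ i (t i) - γ j ·` on `[0, t j]` and `μ'` that of `γ i · - γ j (t j)` on `[0, t i]`.  A point `q ≠ p` of the
closed disc and a point `p` of the circle satisfy `0 < re ((p - q) * conj (p - k))`, so
`|im μ|, |im μ'| < π / 2` (`Lifts.half`).  `exp (μ' - μ) = u i / (- u j)`, hence
`μ' - μ = log (u i) - log (u j) + π i + 2 π i n`, and the bounds on the imaginary parts force
`n = -1` if `η j < η i` and `n = 0` otherwise.  `Lifts.rect` for `F s t = γ i s - γ j t` on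
`[0, L] × [t j, L]` and on `[t i, L] × [0, t j]` (nonvanishing by `Disj` and `ne_k`) with `Lifts.add`,
`Lifts.neg` gives `c - c' = lam i - lam j + μ' - μ`.
-/

namespace Vale.Agent.P040Z

open Set Complex

/-- A point of the circle and a different point of the closed disc. -/
theorem re_chord_pos {P Q : ℂ} (hQ : ‖Q‖ ≤ ‖P‖) (hne : P ≠ Q) :
    0 < ((P - Q) * (starRingEnd ℂ) P).re := by
  have h1 : 0 < Complex.normSq (P - Q) := Complex.normSq_pos.mpr (sub_ne_zero.mpr hne)
  have h2 : Complex.normSq Q ≤ Complex.normSq P := by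
    rw [Complex.normSq_eq_norm_sq, Complex.normSq_eq_norm_sq]
    exact pow_le_pow_left₀ (norm_nonneg _) hQ 2
  simp only [Complex.normSq_apply, Complex.sub_re, Complex.sub_im] at h1 h2
  simp only [Complex.mul_re, Complex.sub_re, Complex.sub_im, Complex.conj_re, Complex.conj_im]
  nlinarith

/-- The first exit time from a disc. -/
theorem exists_first_time {f : ℝ → ℝ} (hf : Continuous f) {r L : ℝ} (h0 : f 0 < r) (hL0 : 0 ≤ L)
    (hL : r ≤ f L) : ∃ t, 0 < t ∧ t ≤ L ∧ f t = r ∧ ∀ σ ∈ Icc 0 t, f σ ≤ r := by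
  have hc : IsCompact (Icc 0 L ∩ {σ | r ≤ f σ}) :=
    isCompact_Icc.inter_right (isClosed_le continuous_const hf)
  obtain ⟨t, ⟨⟨ht0, htL⟩, htr⟩, hmin⟩ :=
    hc.exists_isMinOn ⟨L, ⟨hL0, le_rfl⟩, hL⟩ continuousOn_id
  have htr' : r ≤ f t := htr
  have hlt : ∀ σ, 0 ≤ σ → σ < t → f σ < r := by
    intro σ hσ0 hσt
    by_contra hcon
    have hmem : σ ∈ Icc 0 L ∩ {σ | r ≤ f σ} := ⟨⟨hσ0, hσt.le.trans htL⟩, not_lt.mp hcon⟩
    have := hmin hmem
    simp only [id, mem_setOf_eq] at this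
    linarith
  have heq : f t = r := by
    obtain ⟨s, ⟨hs0, hst⟩, hs⟩ := intermediate_value_Icc ht0 hf.continuousOn ⟨h0.le, htr'⟩
    rcases hst.lt_or_eq with h | h
    · have := hlt s hs0 h
      linarith
    · rw [← h]; exact hs
  have hpos : 0 < t := by
    rcases ht0.lt_or_eq with h | h
    · exact h
    · rw [← h] at heq; linarith
  refine ⟨t, hpos, htL, heq, fun σ hσ => ?_⟩
  rcases hσ.2.lt_or_eq with h | h
  · exact (hlt σ hσ.1 h).le
  · rw [h]; exact heq.le

/-- The integer in the comparison of the two short log changes. -/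
theorem short_change {u w μ μ' : ℂ} (hu : u ≠ 0) (hw : w ≠ 0) (hne : arg u ≠ arg w)
    (huw : u - w ≠ 0) (h1 : exp μ * u = u - w) (h2 : exp μ' * (-w) = u - w)
    (b1 : |μ.im| < Real.pi / 2) (b2 : |μ'.im| < Real.pi / 2) :
    μ' - μ = log u - log w + Real.pi * I - if arg w < arg u then 2 * Real.pi * I else 0 := by
  have hexp : exp (μ' - μ) = exp (log u - log w + Real.pi * I) := by
    have e1 : exp μ = (u - w) / u := by rw [eq_div_iff hu]; exact h1
    have e2 : exp μ' = (u - w) / (-w) := by rw [eq_div_iff (neg_ne_zero.mpr hw)]; exact h2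
    rw [exp_sub, exp_add, exp_sub, exp_log hu, exp_log hw, exp_pi_mul_I, e1, e2]
    field_simp
  obtain ⟨n, hn⟩ := exp_eq_exp_iff_exists_int.mp hexp
  have him : μ'.im - μ.im = arg u - arg w + Real.pi + n * (2 * Real.pi) := by
    have := congrArg Complex.im hn
    simpa [log_im] using this
  have hpi := Real.pi_pos
  have a1 := neg_pi_lt_arg u
  have a2 := arg_le_pi u
  have a3 := neg_pi_lt_arg w
  have a4 := arg_le_pi w
  rw [abs_lt] at b1 b2
  split_ifs with hlt
  · have hn1 : n = -1 := by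
      have c1 : (n : ℝ) < 0 := by
        by_contra hcon
        have := mul_nonneg (not_lt.mp hcon) (by linarith : (0 : ℝ) ≤ 2 * Real.pi)
        linarith
      have c2 : (-2 : ℝ) < n := by
        by_contra hcon
        have := mul_le_mul_of_nonneg_right (not_lt.mp hcon) (by linarith : (0 : ℝ) ≤ 2 * Real.pi)
        linarith
      have c1' : n < 0 := by exact_mod_cast c1
      have c2' : -2 < n := by exact_mod_cast c2
      omega
    rw [hn, hn1]
    push_cast
    ring
  · have hlt' : arg u < arg w := lt_of_le_of_ne (not_lt.mp hlt) hne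
    have hn0 : n = 0 := by
      have c1 : (n : ℝ) < 1 := by
        by_contra hcon
        have := mul_le_mul_of_nonneg_right (not_lt.mp hcon) (by linarith : (0 : ℝ) ≤ 2 * Real.pi)
        linarith
      have c2 : (-1 : ℝ) < n := by
        by_contra hcon
        have := mul_le_mul_of_nonneg_right (not_lt.mp hcon) (by linarith : (0 : ℝ) ≤ 2 * Real.pi)
        linarith
      have c1' : n < 1 := by exact_mod_cast c1
      have c2' : -1 < n := by exact_mod_cast c2
      omega
    rw [hn, hn0]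
    push_cast
    ring

theorem Star.rot {ι : Type} [Finite ι] {k : ℂ} {v : ι → ℂ} (S : Star ι k v) (hS : S.Disj)
    {L : ℝ} (hL0 : 0 < L) (hL : ∀ i, S.γ i L = v i) :
    ∃ (η : ι → ℝ) (e : ι → ℂ), Function.Injective η ∧ (∀ i, exp (e i) = v i - k) ∧
      ∀ i j, i ≠ j → ∀ c c' : ℂ, Lifts (fun σ => S.γ i σ - v j) 0 L c →
        Lifts (fun σ => S.γ j σ - v i) 0 L c' →
        c - c' = e i - e j + Real.pi * I - if η j < η i then 2 * Real.pi * I else 0 := by
  -- the radius
  have hvk : ∀ i, 0 < ‖v i - k‖ := fun i =>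
    norm_pos_iff.mpr (sub_ne_zero.mpr (hL i ▸ S.ne_k i L hL0))
  obtain ⟨r, hr0, hr⟩ : ∃ r : ℝ, 0 < r ∧ ∀ i, r ≤ ‖v i - k‖ := by
    rcases isEmpty_or_nonempty ι with hι | hι
    · exact ⟨1, one_pos, fun i => isEmptyElim i⟩
    · obtain ⟨i₀, hi₀⟩ := Finite.exists_min fun i => ‖v i - k‖
      exact ⟨_, hvk i₀, hi₀⟩
  have hg0 : ∀ i, S.γ i 0 = k := fun i => S.start i 0 le_rfl
  -- first exit times
  have hex : ∀ i, ∃ t, 0 < t ∧ t ≤ L ∧ ‖S.γ i t - k‖ = r ∧ ∀ σ ∈ Icc 0 t, ‖S.γ i σ - k‖ ≤ r := by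
    intro i
    refine exists_first_time (f := fun σ => ‖S.γ i σ - k‖)
      ((S.cont i).sub continuous_const).norm ?_ hL0.le ?_
    · simpa [hg0 i] using hr0
    · simpa [hL i] using hr i
  choose t ht0 htL htr hin using hex
  have hu0 : ∀ i, S.γ i (t i) - k ≠ 0 := fun i => by
    rw [← norm_pos_iff, htr i]; exact hr0
  -- the log change after the exit
  have hlam : ∀ i, ∃ c, Lifts (fun σ => S.γ i σ - k) (t i) L c := fun i =>
    Lifts.exists_of (htL i) ((S.cont i).sub continuous_const).continuousOn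
      fun σ hσ => sub_ne_zero.mpr (S.ne_k i σ ((ht0 i).trans_le hσ.1))
  choose lam hlam using hlam
  have hinj : Function.Injective fun i => arg (S.γ i (t i) - k) := by
    intro i j hij
    by_contra hne
    have h1 : S.γ i (t i) - k = S.γ j (t j) - k :=
      ext_norm_arg (by rw [htr i, htr j]) hij
    exact hS i j hne (t i) (t j) (ht0 i) (sub_left_injective h1)
  refine ⟨fun i => arg (S.γ i (t i) - k), fun i => log (S.γ i (t i) - k) + lam i, hinj, ?_, ?_⟩
  · intro i
    have h1 := Lifts.exp_mul (htL i) (hlam i)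
    simp only [hL i] at h1
    rw [exp_add, exp_log (hu0 i), mul_comm]
    exact h1
  intro i j hij c c' hc hc'
  have hci := S.cont i
  have hcj := S.cont j
  have n1 : ∀ s σ, 0 < s → S.γ i s - S.γ j σ ≠ 0 := fun s σ hs =>
    sub_ne_zero.mpr (hS i j hij s σ hs)
  have n2 : ∀ s σ, 0 < σ → S.γ i s - S.γ j σ ≠ 0 := fun s σ hσ =>
    sub_ne_zero.mpr (hS j i hij.symm σ s hσ).symm
  have hF : Continuous fun p : ℝ × ℝ => S.γ i p.1 - S.γ j p.2 :=
    (hci.comp continuous_fst).sub (hcj.comp continuous_snd)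
  obtain ⟨A, hA⟩ : ∃ A, Lifts (fun s => S.γ i s - S.γ j (t j)) 0 L A :=
    Lifts.exists_of hL0.le (hci.sub continuous_const).continuousOn fun s _ => n2 s _ (ht0 j)
  obtain ⟨μ', hμ'⟩ : ∃ A, Lifts (fun s => S.γ i s - S.γ j (t j)) 0 (t i) A :=
    Lifts.exists_of (ht0 i).le (hci.sub continuous_const).continuousOn fun s _ => n2 s _ (ht0 j)
  obtain ⟨A2, hA2⟩ : ∃ A, Lifts (fun s => S.γ i s - S.γ j (t j)) (t i) L A :=
    Lifts.exists_of (htL i) (hci.sub continuous_const).continuousOn fun s _ => n2 s _ (ht0 j)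
  obtain ⟨B, hB⟩ : ∃ A, Lifts (fun σ => S.γ i L - S.γ j σ) (t j) L A :=
    Lifts.exists_of (htL j) (continuous_const.sub hcj).continuousOn fun σ _ => n1 _ σ hL0
  obtain ⟨B1, hB1⟩ : ∃ A, Lifts (fun σ => S.γ i L - S.γ j σ) 0 (t j) A :=
    Lifts.exists_of (ht0 j).le (continuous_const.sub hcj).continuousOn fun σ _ => n1 _ σ hL0
  obtain ⟨μ, hμ⟩ : ∃ A, Lifts (fun σ => S.γ i (t i) - S.γ j σ) 0 (t j) A :=
    Lifts.exists_of (ht0 j).le (continuous_const.sub hcj).continuousOn fun σ _ => n1 _ σ (ht0 i)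
  have hlj : Lifts (fun σ => S.γ i 0 - S.γ j σ) (t j) L (lam j) := by
    have h1 := (hlam j).neg
    simp only [neg_sub] at h1
    rw [hg0 i]
    exact h1
  have hli : Lifts (fun s => S.γ i s - S.γ j 0) (t i) L (lam i) := by
    rw [hg0 j]
    exact hlam i
  have hc1 : Lifts (fun s => S.γ i s - S.γ j L) 0 L c := by
    rw [hL j]
    exact hc
  have hc2 : Lifts (fun σ => S.γ i L - S.γ j σ) 0 L c' := by
    have h1 := hc'.neg
    simp only [neg_sub] at h1
    rw [hL i]
    exact h1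
  have r1 : A + B = lam j + c :=
    Lifts.rect (F := fun s σ => S.γ i s - S.γ j σ) hL0.le (htL j) hF.continuousOn
      (fun s _ σ hσ => n2 s σ ((ht0 j).trans_le hσ.1)) hA hB hlj hc1
  have r2 : lam i + B1 = μ + A2 :=
    Lifts.rect (F := fun s σ => S.γ i s - S.γ j σ) (htL i) (ht0 j).le hF.continuousOn
      (fun s hs σ _ => n1 s σ ((ht0 i).trans_le hs.1)) hli hB1 hμ hA2
  have r3 : A = μ' + A2 := Lifts.add (ht0 i).le (htL i) hμ' hA2 hA
  have r4 : c' = B1 + B := Lifts.add (ht0 j).le (htL j) hB1 hB hc2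
  have b1 : |μ.im| < Real.pi / 2 := by
    refine Lifts.half (ht0 j).le (continuous_const.sub hcj).continuousOn hμ fun σ hσ => ?_
    have h1 := re_chord_pos (P := S.γ i (t i) - k) (Q := S.γ j σ - k)
      (by rw [htr i]; exact hin j σ hσ)
      (fun h => n1 _ σ (ht0 i) (sub_eq_zero.mpr (sub_left_injective h)))
    show 0 < ((S.γ i (t i) - S.γ j σ) * (starRingEnd ℂ) (S.γ i (t i) - S.γ j 0)).re
    rw [hg0 j]
    rwa [sub_sub_sub_cancel_right] at h1
  have b2 : |μ'.im| < Real.pi / 2 := by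
    refine Lifts.half (ht0 i).le (hci.sub continuous_const).continuousOn hμ' fun s hs => ?_
    have h1 := re_chord_pos (P := S.γ j (t j) - k) (Q := S.γ i s - k)
      (by rw [htr j]; exact hin i s hs)
      (fun h => n2 s _ (ht0 j) (sub_eq_zero.mpr (sub_left_injective h).symm))
    show 0 < ((S.γ i s - S.γ j (t j)) * (starRingEnd ℂ) (S.γ i 0 - S.γ j (t j))).re
    rw [hg0 i]
    rw [sub_sub_sub_cancel_right] at h1
    have h2 : (S.γ i s - S.γ j (t j)) * (starRingEnd ℂ) (k - S.γ j (t j)) =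
        (S.γ j (t j) - S.γ i s) * (starRingEnd ℂ) (S.γ j (t j) - k) := by
      simp only [map_sub]; ring
    rw [h2]
    exact h1
  have e1 := Lifts.exp_mul (ht0 j).le hμ
  have e2 := Lifts.exp_mul (ht0 i).le hμ'
  simp only [hg0 j] at e1
  simp only [hg0 i] at e2
  have key := short_change (u := S.γ i (t i) - k) (w := S.γ j (t j) - k) (μ := μ) (μ' := μ')
    (hu0 i) (hu0 j) (fun h => hij (hinj h))
    (by rw [sub_sub_sub_cancel_right]; exact n1 _ _ (ht0 i))
    (by rw [sub_sub_sub_cancel_right]; exact e1)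
    (by rw [sub_sub_sub_cancel_right, neg_sub]; exact e2) b1 b2
  have r5 : c - c' = lam i - lam j + (μ' - μ) := by
    linear_combination -r1 - r4 + r3 - r2
  rw [r5, key]
  ring

end Vale.Agent.P040Z
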